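import Claimed.Agent.R291.Geo.Hex

/-!
# Row 291 (S0539), unit FRZ, part ARC: boundary pieces by parameter arcs      (owner helper25; prefix `dct_`)

TEX[lem:boundary-walk] (05-pins.tex l.47-105), TEX[lem:label-count], 06-boundary.tex l.45-65: replaced by the walk-free
design D2 of helper34 (`origin/helper34:notes/R291/sec5_34.md`).  For a parametrisation `g : X → ℝ × ℝ` of the frontier of
`faceRegion δ F` and a set of parameters `K`,

  `dctS δ F g K = {u ∈ F | ∃ z ∈ K, g z ∈ hexFace δ u}`      (the faces of `F` touched by `g '' K`).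

* (A1) `dct_S_univ`          `dctS univ` = inner boundary layer `dctBd F`
* (A2) `dct_S_no_split`, `dct_S_reach`, `dct_S_reach'`     `K` preconnected ⇒ `dctS K` is connected for `triAdj`
* (A3) `dct_S_near`, `dct_S_near_lim`      every face of `dctS K` is within `δ/√3` of `g '' K` (within `δ + ε` of `γ '' K`)
* (A4) `dct_S_mono`, `dct_S_union`, `dct_S_iUnion`, `dct_S_empty`
* (A5) `dct_S_inter`, `dct_S_inter_lim`, `dct_S_adj_lim`    common or adjacent faces ⇒ the parameters are close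
* (A6) `dct_inv_modulus`     modulus of continuity of the inverse of an injective continuous map of a compact space
* (A7) `DctPar.S_sep`        separated parameter sets have disjoint, non adjacent pieces at fine mesh
* (A8) `DctPar.S_local`      every visit of a small patch happens in the corresponding parameter window
* (A9) `DctPar.S_patch`      the piece of a small parameter window stays in a small patch
* `DctPar`, `dct_par_exists`  the parametrisations hidden in `IsInsideApprox`, opened once and for all;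
  `DctPar.S_univ, S_reach, Bd_reach, S_sep (A7), S_local (A8), small`
* arcs: `dctArc a b = Circle.exp '' Icc a b`: `dct_arc_preconnected/compact/mono/shift/union`, chord `dct_circle_dist(_le,_ge)`,
  `dct_circle_angle`, `dct_circle_near` (close to `e^{i t0}` ⇒ on the short arc), `dct_arc_sep` (separated arcs).
Euclidean triangle inequality for the frozen `sqDist`: `dct_sqDist_tri`.
-/

set_option autoImplicit false

open Set Filter Topology
open Claims.C0467

namespace Claimed.Agent.R291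

/-! ### the Euclidean triangle inequality for `sqDist` -/

/-- triangle inequality, in the root-free form. -/
theorem dct_sqDist_tri {a b c : ℝ × ℝ} {r s : ℝ} (hr : 0 ≤ r) (hs : 0 ≤ s) (h1 : sqDist a b ≤ r ^ 2)
    (h2 : sqDist b c ≤ s ^ 2) : sqDist a c ≤ (r + s) ^ 2 := by
  unfold sqDist at *
  set p1 := a.1 - b.1
  set p2 := a.2 - b.2
  set q1 := b.1 - c.1
  set q2 := b.2 - c.2
  have e1 : a.1 - c.1 = p1 + q1 := by simp only [p1, q1]; ring
  have e2 : a.2 - c.2 = p2 + q2 := by simp only [p2, q2]; ring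
  rw [e1, e2]
  have hcs : (p1 * q1 + p2 * q2) ^ 2 ≤ (r * s) ^ 2 := by
    have h3 : (p1 * q1 + p2 * q2) ^ 2 ≤ (p1 ^ 2 + p2 ^ 2) * (q1 ^ 2 + q2 ^ 2) := by
      nlinarith [sq_nonneg (p1 * q2 - p2 * q1)]
    have h4 : (p1 ^ 2 + p2 ^ 2) * (q1 ^ 2 + q2 ^ 2) ≤ r ^ 2 * s ^ 2 :=
      mul_le_mul h1 h2 (by positivity) (by positivity)
    calc _ ≤ _ := h3
      _ ≤ _ := h4
      _ = (r * s) ^ 2 := by ring
  have h5 : p1 * q1 + p2 * q2 ≤ r * s := (abs_le_of_sq_le_sq' hcs (by positivity)).2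
  nlinarith

theorem dct_sqDist_tri3 {a b c d : ℝ × ℝ} {r s t : ℝ} (hr : 0 ≤ r) (hs : 0 ≤ s) (ht : 0 ≤ t)
    (h1 : sqDist a b ≤ r ^ 2) (h2 : sqDist b c ≤ s ^ 2) (h3 : sqDist c d ≤ t ^ 2) :
    sqDist a d ≤ (r + s + t) ^ 2 :=
  dct_sqDist_tri (add_nonneg hr hs) ht (dct_sqDist_tri hr hs h1 h2) h3

/-- a point of a face is within `δ` of the centre (crude form of the radius `δ/√3`). -/
theorem dct_face_le {δ : ℝ} (hδ : 0 < δ) {u : ℤ × ℤ} {z : ℝ × ℝ} (h : z ∈ hexFace δ u) :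
    sqDist z (triPos δ u) ≤ δ ^ 2 := by
  have h1 := hg_hexFace_sqDist_le hδ h
  have : 0 < δ ^ 2 := by positivity
  linarith

/-! ### the pieces -/

/-- the inner boundary layer of `F` (where the frozen heights vanish). -/
def dctBd (F : Finset (ℤ × ℤ)) : Set (ℤ × ℤ) := {u | u ∈ F ∧ ∃ v, triAdj u v ∧ v ∉ F}

/-- the faces of `F` touched by `g '' K`. -/
def dctS {X : Type} (δ : ℝ) (F : Finset (ℤ × ℤ)) (g : X → ℝ × ℝ) (K : Set X) : Set (ℤ × ℤ) :=
  {u | u ∈ F ∧ ∃ z ∈ K, g z ∈ hexFace δ u}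

theorem dct_arc_eqns_cite : True := by
  have := @dctBd.eq_1; have := @dctS.eq_1
  trivial

section pieces

variable {X : Type} {δ : ℝ} {F : Finset (ℤ × ℤ)} {g : X → ℝ × ℝ}

theorem dct_mem_S {K : Set X} {u : ℤ × ℤ} : u ∈ dctS δ F g K ↔ u ∈ F ∧ ∃ z ∈ K, g z ∈ hexFace δ u := Iff.rfl

theorem dct_mem_Bd {u : ℤ × ℤ} : u ∈ dctBd F ↔ u ∈ F ∧ ∃ v, triAdj u v ∧ v ∉ F := Iff.rfl

theorem dct_S_sub_F (K : Set X) : dctS δ F g K ⊆ (F : Set (ℤ × ℤ)) := fun _ h => h.1

theorem dct_S_finite (K : Set X) : (dctS δ F g K).Finite := F.finite_toSet.subset (dct_S_sub_F K)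

/-- (A4) monotone. -/
theorem dct_S_mono {K L : Set X} (h : K ⊆ L) : dctS δ F g K ⊆ dctS δ F g L :=
  fun _ ⟨hu, z, hz, hg⟩ => ⟨hu, z, h hz, hg⟩

/-- (A4) union. -/
theorem dct_S_union (K L : Set X) : dctS δ F g (K ∪ L) = dctS δ F g K ∪ dctS δ F g L := by
  ext u
  constructor
  · rintro ⟨hu, z, hz | hz, hg⟩
    · exact Or.inl ⟨hu, z, hz, hg⟩
    · exact Or.inr ⟨hu, z, hz, hg⟩
  · rintro (h | h)
    · exact dct_S_mono subset_union_left h
    · exact dct_S_mono subset_union_right h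

theorem dct_S_iUnion {ι : Type} (K : ι → Set X) : dctS δ F g (⋃ i, K i) = ⋃ i, dctS δ F g (K i) := by
  ext u
  simp only [dct_mem_S, mem_iUnion]
  constructor
  · rintro ⟨hu, z, ⟨i, hz⟩, hg⟩
    exact ⟨i, hu, z, hz, hg⟩
  · rintro ⟨i, hu, z, hz, hg⟩
    exact ⟨hu, z, ⟨i, hz⟩, hg⟩

theorem dct_S_empty : dctS δ F g (∅ : Set X) = ∅ := by
  ext u
  simp [dct_mem_S]

/-- every parameter is seen by some face of the piece. -/
theorem dct_S_cover (hδ : 0 < δ) (hg : ∀ z, g z ∈ frontier (faceRegion δ F)) {K : Set X} {z : X} (hz : z ∈ K) :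
    ∃ u ∈ dctS δ F g K, g z ∈ hexFace δ u := by
  obtain ⟨u, hu, -, -, -, hzu, -⟩ := (hg_mem_frontier_iff hδ F _).1 (hg z)
  exact ⟨u, ⟨hu, z, hz, hzu⟩, hzu⟩

theorem dct_S_nonempty (hδ : 0 < δ) (hg : ∀ z, g z ∈ frontier (faceRegion δ F)) {K : Set X} (hK : K.Nonempty) :
    (dctS δ F g K).Nonempty := by
  obtain ⟨z, hz⟩ := hK
  obtain ⟨u, hu, -⟩ := dct_S_cover hδ hg hz
  exact ⟨u, hu⟩

/-- every piece lies in the boundary layer. -/
theorem dct_S_sub_Bd (hδ : 0 < δ) (hg : ∀ z, g z ∈ frontier (faceRegion δ F)) (K : Set X) :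
    dctS δ F g K ⊆ dctBd F := by
  rintro u ⟨hu, z, -, hzu⟩
  obtain ⟨-, -, v, hv, -, -, hzv⟩ := (hg_mem_frontier_iff hδ F _).1 (hg z)
  rcases (hg_inter_nonempty_iff hδ u v).1 ⟨g z, hzu, hzv⟩ with h | h
  · exact absurd (h ▸ hu) hv
  · exact ⟨hu, v, h, hv⟩

/-- **(A1)** the whole parameter space gives the inner boundary layer. -/
theorem dct_S_univ (hδ : 0 < δ) (hg : range g = frontier (faceRegion δ F)) : dctS δ F g univ = dctBd F := by
  apply subset_antisymm (dct_S_sub_Bd hδ (fun z => hg ▸ mem_range_self z) _)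
  rintro u ⟨hu, v, huv, hv⟩
  have h1 := hg_mid_mem_frontier hδ hu hv huv
  rw [← hg] at h1
  obtain ⟨z, hz⟩ := h1
  exact ⟨hu, z, mem_univ _, hz ▸ hg_mid_mem_left hδ huv⟩

/-- **(A2)**, split form: the piece of a preconnected set of parameters is connected. -/
theorem dct_S_no_split [TopologicalSpace X] (hδ : 0 < δ) (hg : ∀ z, g z ∈ frontier (faceRegion δ F)) {K : Set X}
    (hK : IsPreconnected K) (hc : ContinuousOn g K) {S : Set (ℤ × ℤ)} (hS : S ⊆ dctS δ F g K) (hne : S.Nonempty)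
    (hcl : ∀ a ∈ S, ∀ b ∈ dctS δ F g K, triAdj a b → b ∈ S) : S = dctS δ F g K := by
  by_contra hSP
  have hT : (dctS δ F g K \ S).Nonempty := by
    by_contra hcn
    rw [Set.not_nonempty_iff_eq_empty, Set.sdiff_eq_empty] at hcn
    exact hSP (subset_antisymm hS hcn)
  have hconn : IsPreconnected (g '' K) := hK.image g hc
  have hcov : g '' K ⊆ hgU δ S ∪ hgU δ (dctS δ F g K \ S) := by
    rintro _ ⟨z, hz, rfl⟩
    obtain ⟨u, hu, hzu⟩ := dct_S_cover hδ hg hz
    by_cases huS : u ∈ S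
    · exact Or.inl (hg_mem_U.2 ⟨u, huS, hzu⟩)
    · exact Or.inr (hg_mem_U.2 ⟨u, ⟨hu, huS⟩, hzu⟩)
  have t1 : (g '' K ∩ hgU δ S).Nonempty := by
    obtain ⟨a, ha⟩ := hne
    obtain ⟨-, z, hz, hza⟩ := hS ha
    exact ⟨g z, mem_image_of_mem g hz, hg_mem_U.2 ⟨a, ha, hza⟩⟩
  have t2 : (g '' K ∩ hgU δ (dctS δ F g K \ S)).Nonempty := by
    obtain ⟨a, ha⟩ := hT
    obtain ⟨-, z, hz, hza⟩ := ha.1
    exact ⟨g z, mem_image_of_mem g hz, hg_mem_U.2 ⟨a, ha, hza⟩⟩
  obtain ⟨w, -, hw1, hw2⟩ := (isPreconnected_closed_iff.1 hconn) _ _ (hg_isClosed_U hδ S)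
    (hg_isClosed_U hδ (dctS δ F g K \ S)) hcov t1 t2
  obtain ⟨a, ha, hwa⟩ := hg_mem_U.1 hw1
  obtain ⟨b, hb, hwb⟩ := hg_mem_U.1 hw2
  rcases (hg_inter_nonempty_iff hδ a b).1 ⟨w, hwa, hwb⟩ with h | h
  · exact hb.2 (h ▸ ha)
  · exact hb.2 (hcl a ha b hb.1 h)

/-- **(A2)**, path form. -/
theorem dct_S_reach [TopologicalSpace X] (hδ : 0 < δ) (hg : ∀ z, g z ∈ frontier (faceRegion δ F)) {K : Set X}
    (hK : IsPreconnected K) (hc : ContinuousOn g K) {u v : ℤ × ℤ} (hu : u ∈ dctS δ F g K) (hv : v ∈ dctS δ F g K) :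
    Relation.ReflTransGen (fun a b => triAdj a b ∧ b ∈ dctS δ F g K) u v :=
  hg_reach_of_no_split (fun _ hS hne hcl => dct_S_no_split hδ hg hK hc hS hne hcl) hu hv

/-- **(A2)**, path form with both end points of every step in the piece (the form asked by PIN). -/
theorem dct_S_reach' [TopologicalSpace X] (hδ : 0 < δ) (hg : ∀ z, g z ∈ frontier (faceRegion δ F)) {K : Set X}
    (hK : IsPreconnected K) (hc : ContinuousOn g K) {u v : ℤ × ℤ} (hu : u ∈ dctS δ F g K) (hv : v ∈ dctS δ F g K) :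
    Relation.ReflTransGen (fun a b => triAdj a b ∧ a ∈ dctS δ F g K ∧ b ∈ dctS δ F g K) u v := by
  have h := dct_S_reach hδ hg hK hc hu hv
  have key : ∀ w, Relation.ReflTransGen (fun a b => triAdj a b ∧ b ∈ dctS δ F g K) u w →
      w ∈ dctS δ F g K ∧
        Relation.ReflTransGen (fun a b => triAdj a b ∧ a ∈ dctS δ F g K ∧ b ∈ dctS δ F g K) u w := by
    intro w hw
    induction hw with
    | refl => exact ⟨hu, Relation.ReflTransGen.refl⟩
    | tail _ hbc ih => exact ⟨hbc.2, ih.2.tail ⟨hbc.1, ih.1, hbc.2⟩⟩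
  exact (key v h).2

/-- **(A3)** -/
theorem dct_S_near (hδ : 0 < δ) {K : Set X} {u : ℤ × ℤ} (hu : u ∈ dctS δ F g K) :
    ∃ z ∈ K, sqDist (g z) (triPos δ u) ≤ δ ^ 2 / 3 := by
  obtain ⟨-, z, hz, hzu⟩ := hu
  exact ⟨z, hz, hg_hexFace_sqDist_le hδ hzu⟩

/-- **(A5)** -/
theorem dct_S_inter (hδ : 0 < δ) {K L : Set X} {u : ℤ × ℤ} (hu : u ∈ dctS δ F g K) (hu' : u ∈ dctS δ F g L) :
    ∃ z ∈ K, ∃ w ∈ L, sqDist (g z) (g w) ≤ (2 * δ) ^ 2 := by
  obtain ⟨-, z, hz, hzu⟩ := hu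
  obtain ⟨-, w, hw, hwu⟩ := hu'
  refine ⟨z, hz, w, hw, ?_⟩
  have h1 := dct_face_le hδ hzu
  have h2 := dct_face_le hδ hwu
  rw [hg_sqDist_comm] at h2
  have := dct_sqDist_tri hδ.le hδ.le h1 h2
  rwa [← two_mul] at this


/-! ### comparison with a limiting parametrisation `γ` -/

variable {γ : X → ℝ × ℝ} {ε : ℝ}

/-- **(A3)** with the limiting curve. -/
theorem dct_S_near_lim (hδ : 0 < δ) (hε : 0 ≤ ε) (hcl : ∀ z, sqDist (g z) (γ z) ≤ ε ^ 2) {K : Set X} {u : ℤ × ℤ}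
    (hu : u ∈ dctS δ F g K) : ∃ z ∈ K, sqDist (triPos δ u) (γ z) ≤ (δ + ε) ^ 2 := by
  obtain ⟨-, z, hz, hzu⟩ := hu
  have h1 := dct_face_le hδ hzu
  rw [hg_sqDist_comm] at h1
  exact ⟨z, hz, dct_sqDist_tri hδ.le hε h1 (hcl z)⟩

/-- every visit: all parameters seen by the face `u` are near its centre. -/
theorem dct_visit_near_lim (hδ : 0 < δ) (hε : 0 ≤ ε) (hcl : ∀ z, sqDist (g z) (γ z) ≤ ε ^ 2) {u : ℤ × ℤ} {z : X}
    (hzu : g z ∈ hexFace δ u) : sqDist (triPos δ u) (γ z) ≤ (δ + ε) ^ 2 := by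
  have h1 := dct_face_le hδ hzu
  rw [hg_sqDist_comm] at h1
  exact dct_sqDist_tri hδ.le hε h1 (hcl z)

/-- **(A5)** with the limiting curve. -/
theorem dct_S_inter_lim (hδ : 0 < δ) (hε : 0 ≤ ε) (hcl : ∀ z, sqDist (g z) (γ z) ≤ ε ^ 2) {K L : Set X} {u : ℤ × ℤ}
    (hu : u ∈ dctS δ F g K) (hu' : u ∈ dctS δ F g L) :
    ∃ z ∈ K, ∃ w ∈ L, sqDist (γ z) (γ w) ≤ (2 * δ + 2 * ε) ^ 2 := by
  obtain ⟨-, z, hz, hzu⟩ := hu
  obtain ⟨-, w, hw, hwu⟩ := hu'
  refine ⟨z, hz, w, hw, ?_⟩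
  have h1 := dct_visit_near_lim hδ hε hcl hzu
  have h2 := dct_visit_near_lim hδ hε hcl hwu
  rw [hg_sqDist_comm] at h1
  have := dct_sqDist_tri (add_nonneg hδ.le hε) (add_nonneg hδ.le hε) h1 h2
  have e : δ + ε + (δ + ε) = 2 * δ + 2 * ε := by ring
  rwa [e] at this

/-- **(A5)** for adjacent faces. -/
theorem dct_S_adj_lim (hδ : 0 < δ) (hε : 0 ≤ ε) (hcl : ∀ z, sqDist (g z) (γ z) ≤ ε ^ 2) {K L : Set X} {u v : ℤ × ℤ}
    (hu : u ∈ dctS δ F g K) (hv : v ∈ dctS δ F g L) (huv : triAdj u v) :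
    ∃ z ∈ K, ∃ w ∈ L, sqDist (γ z) (γ w) ≤ (3 * δ + 2 * ε) ^ 2 := by
  obtain ⟨-, z, hz, hzu⟩ := hu
  obtain ⟨-, w, hw, hwv⟩ := hv
  refine ⟨z, hz, w, hw, ?_⟩
  have h1 := dct_visit_near_lim hδ hε hcl hzu
  have h2 := dct_visit_near_lim hδ hε hcl hwv
  rw [hg_sqDist_comm] at h1
  have h3 : sqDist (triPos δ u) (triPos δ v) ≤ δ ^ 2 := (hg_sqDist_of_triAdj δ huv).le
  have := dct_sqDist_tri3 (add_nonneg hδ.le hε) hδ.le (add_nonneg hδ.le hε) h1 h3 h2
  have e : δ + ε + δ + (δ + ε) = 3 * δ + 2 * ε := by ring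
  rwa [e] at this

end pieces

/-! ### moduli of continuity -/

theorem dct_sqDist_continuous {Y : Type} [TopologicalSpace Y] {a b : Y → ℝ × ℝ} (ha : Continuous a)
    (hb : Continuous b) : Continuous fun y => sqDist (a y) (b y) := by
  unfold sqDist
  fun_prop

/-- **(A6)** modulus of continuity of the inverse of an injective continuous map of a compact metric space. -/
theorem dct_inv_modulus {X : Type} [MetricSpace X] [CompactSpace X] {γ : X → ℝ × ℝ} (hc : Continuous γ)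
    (hi : Function.Injective γ) {η : ℝ} (hη : 0 < η) :
    ∃ ρ : ℝ, 0 < ρ ∧ ∀ z w, sqDist (γ z) (γ w) ≤ ρ ^ 2 → dist z w < η := by
  set C : Set (X × X) := {p | η ≤ dist p.1 p.2} with hC
  have hCc : IsCompact C := (isClosed_le continuous_const continuous_dist).isCompact
  have hf : Continuous fun p : X × X => sqDist (γ p.1) (γ p.2) :=
    dct_sqDist_continuous (hc.comp continuous_fst) (hc.comp continuous_snd)
  by_cases hne : C.Nonempty
  · obtain ⟨p, hp, hmin⟩ := hCc.exists_isMinOn hne hf.continuousOn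
    have hpos : 0 < sqDist (γ p.1) (γ p.2) := by
      rcases (hg_sqDist_nonneg (γ p.1) (γ p.2)).lt_or_eq with h | h
      · exact h
      · exfalso
        have h1 := hi (hg_sqDist_eq_zero h.symm)
        have h2 : η ≤ dist p.1 p.2 := hp
        rw [h1, dist_self] at h2
        linarith
    set m := sqDist (γ p.1) (γ p.2) with hm
    refine ⟨min 1 (m / 2), lt_min one_pos (by positivity), fun z w hzw => ?_⟩
    by_contra hcon
    have h1 : (z, w) ∈ C := not_lt.1 hcon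
    have h2 : m ≤ sqDist (γ z) (γ w) := hmin h1
    have h3 : 0 < min 1 (m / 2) := lt_min one_pos (by positivity)
    have h4 : min 1 (m / 2) ≤ 1 := min_le_left _ _
    have h5 : min 1 (m / 2) ≤ m / 2 := min_le_right _ _
    nlinarith
  · refine ⟨1, one_pos, fun z w _ => ?_⟩
    by_contra hcon
    exact hne ⟨(z, w), not_lt.1 hcon⟩

/-- modulus of continuity of a continuous map of a compact metric space, for `sqDist`. -/
theorem dct_modulus {X : Type} [MetricSpace X] [CompactSpace X] {γ : X → ℝ × ℝ} (hc : Continuous γ)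
    {r : ℝ} (hr : 0 < r) : ∃ η : ℝ, 0 < η ∧ ∀ z w, dist z w ≤ η → sqDist (γ z) (γ w) ≤ r ^ 2 := by
  have huc := CompactSpace.uniformContinuous_of_continuous hc
  obtain ⟨η, hη, h⟩ := Metric.uniformContinuous_iff.1 huc (r / 2) (by positivity)
  refine ⟨η / 2, by positivity, fun z w hzw => ?_⟩
  have h1 := h (a := z) (b := w) (by linarith)
  have h2 := hg_sqDist_le_dist_sq (γ z) (γ w)
  have h3 : dist (γ z) (γ w) ^ 2 ≤ (r / 2) ^ 2 := by
    apply pow_le_pow_left₀ dist_nonneg h1.le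
  nlinarith

/-! ### the parametrisations of `IsInsideApprox` -/

/-- the data hidden in `IsInsideApprox D δ F`, with the two parametrisations named. -/
structure DctPar (D : Set (ℝ × ℝ)) (δ : ℕ → ℝ) (F : ℕ → Finset (ℤ × ℤ)) (γ : Circle → ℝ × ℝ)
    (γs : ℕ → Circle → ℝ × ℝ) : Prop where
  pos : ∀ n, 0 < δ n
  lim : Tendsto δ atTop (𝓝 0)
  sub : ∀ n, faceRegion (δ n) (F n) ⊆ D
  exh : ∀ K : Set (ℝ × ℝ), IsCompact K → K ⊆ D → ∀ᶠ n in atTop, K ⊆ faceRegion (δ n) (F n)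
  cont : Continuous γ
  inj : Function.Injective γ
  rng : range γ = frontier D
  conts : ∀ n, Continuous (γs n)
  injs : ∀ n, Function.Injective (γs n)
  rngs : ∀ n, range (γs n) = frontier (faceRegion (δ n) (F n))
  unif : ∀ ε : ℝ, 0 < ε → ∀ᶠ n in atTop, ∀ z, sqDist (γs n z) (γ z) < ε ^ 2

theorem dct_par_exists {D : Set (ℝ × ℝ)} {δ : ℕ → ℝ} {F : ℕ → Finset (ℤ × ℤ)} :
    IsInsideApprox D δ F ↔ ∃ γ γs, DctPar D δ F γ γs := by
  constructor
  · rintro ⟨h1, h2, h3, h4, γ, γs, h5, h6, h7, h8, h9⟩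
    exact ⟨γ, γs, h1, h2, h3, h4, h5, h6, h7, fun n => (h8 n).1, fun n => (h8 n).2.1, fun n => (h8 n).2.2, h9⟩
  · rintro ⟨γ, γs, h⟩
    exact ⟨h.pos, h.lim, h.sub, h.exh, γ, γs, h.cont, h.inj, h.rng,
      fun n => ⟨h.conts n, h.injs n, h.rngs n⟩, h.unif⟩

section par

variable {D : Set (ℝ × ℝ)} {δ : ℕ → ℝ} {F : ℕ → Finset (ℤ × ℤ)} {γ : Circle → ℝ × ℝ} {γs : ℕ → Circle → ℝ × ℝ}

theorem DctPar.fr (h : DctPar D δ F γ γs) (n : ℕ) (z : Circle) : γs n z ∈ frontier (faceRegion (δ n) (F n)) :=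
  h.rngs n ▸ mem_range_self z

/-- mesh and parametric distance are eventually below any threshold. -/
theorem DctPar.small (h : DctPar D δ F γ γs) {ε : ℝ} (hε : 0 < ε) :
    ∀ᶠ n in atTop, δ n ≤ ε ∧ ∀ z, sqDist (γs n z) (γ z) ≤ ε ^ 2 := by
  have h1 : ∀ᶠ n in atTop, δ n < ε := h.lim.eventually (gt_mem_nhds hε)
  filter_upwards [h1, h.unif ε hε] with n a b
  exact ⟨a.le, fun z => (b z).le⟩

/-- the boundary layer is the piece of the whole circle. -/
theorem DctPar.S_univ (h : DctPar D δ F γ γs) (n : ℕ) : dctS (δ n) (F n) (γs n) univ = dctBd (F n) :=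
  dct_S_univ (h.pos n) (h.rngs n)

/-- **(A2)** for the approximations. -/
theorem DctPar.S_reach (h : DctPar D δ F γ γs) (n : ℕ) {K : Set Circle} (hK : IsPreconnected K) {u v : ℤ × ℤ}
    (hu : u ∈ dctS (δ n) (F n) (γs n) K) (hv : v ∈ dctS (δ n) (F n) (γs n) K) :
    Relation.ReflTransGen (fun a b => triAdj a b ∧ a ∈ dctS (δ n) (F n) (γs n) K ∧ b ∈ dctS (δ n) (F n) (γs n) K) u v :=
  dct_S_reach' (h.pos n) (h.fr n) hK (h.conts n).continuousOn hu hv

/-- the boundary layer is connected. -/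
theorem DctPar.Bd_reach (h : DctPar D δ F γ γs) (n : ℕ) {u v : ℤ × ℤ} (hu : u ∈ dctBd (F n)) (hv : v ∈ dctBd (F n)) :
    Relation.ReflTransGen (fun a b => triAdj a b ∧ a ∈ dctBd (F n) ∧ b ∈ dctBd (F n)) u v := by
  have := h.S_reach n isPreconnected_univ (u := u) (v := v) (by rw [h.S_univ]; exact hu) (by rw [h.S_univ]; exact hv)
  rwa [h.S_univ] at this

/-- **(A7)** separated sets of parameters: at fine mesh their pieces are disjoint and not adjacent.
The threshold depends on the separation `η` only. -/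
theorem DctPar.S_sep (h : DctPar D δ F γ γs) {η : ℝ} (hη : 0 < η) :
    ∀ᶠ n in atTop, ∀ K L : Set Circle, (∀ z ∈ K, ∀ w ∈ L, η ≤ dist z w) →
      ∀ u ∈ dctS (δ n) (F n) (γs n) K, ∀ v ∈ dctS (δ n) (F n) (γs n) L, u ≠ v ∧ ¬ triAdj u v := by
  obtain ⟨ρ, hρ, hmod⟩ := dct_inv_modulus h.cont h.inj hη
  filter_upwards [h.small (ε := ρ / 5) (by positivity)] with n hn K L hKL u hu v hv
  have hε : (0:ℝ) ≤ ρ / 5 := by positivity
  have hδ := h.pos n
  constructor
  · rintro rfl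
    obtain ⟨z, hz, w, hw, hzw⟩ := dct_S_inter_lim hδ hε hn.2 hu hv
    have h1 : sqDist (γ z) (γ w) ≤ ρ ^ 2 := hzw.trans (pow_le_pow_left₀ (by positivity) (by linarith [hn.1]) 2)
    exact absurd (hmod z w h1) (not_lt.2 (hKL z hz w hw))
  · intro huv
    obtain ⟨z, hz, w, hw, hzw⟩ := dct_S_adj_lim hδ hε hn.2 hu hv huv
    have h1 : sqDist (γ z) (γ w) ≤ ρ ^ 2 := hzw.trans (pow_le_pow_left₀ (by positivity) (by linarith [hn.1]) 2)
    exact absurd (hmod z w h1) (not_lt.2 (hKL z hz w hw))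

/-- **(A8)** every visit of a small patch happens in the corresponding parameter window (uniformly in the patch). -/
theorem DctPar.S_local (h : DctPar D δ F γ γs) {η : ℝ} (hη : 0 < η) :
    ∃ r : ℝ, 0 < r ∧ ∀ᶠ n in atTop, ∀ (z0 z : Circle) (u : ℤ × ℤ), γs n z ∈ hexFace (δ n) u →
      sqDist (triPos (δ n) u) (γ z0) ≤ r ^ 2 → dist z z0 < η := by
  obtain ⟨ρ, hρ, hmod⟩ := dct_inv_modulus h.cont h.inj hη
  refine ⟨ρ / 3, by positivity, ?_⟩
  filter_upwards [h.small (ε := ρ / 3) (by positivity)] with n hn z0 z u hzu hu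
  have hε : (0:ℝ) ≤ ρ / 3 := by positivity
  have hδ := h.pos n
  have h1 := dct_visit_near_lim hδ hε hn.2 hzu
  rw [hg_sqDist_comm] at h1
  have h2 := dct_sqDist_tri (add_nonneg hδ.le hε) hε h1 hu
  exact hmod z z0 (h2.trans (pow_le_pow_left₀ (by positivity) (by linarith [hn.1]) 2))

/-- **(A9)** the piece of a small parameter window stays in a small patch (uniformly in the window). -/
theorem DctPar.S_patch (h : DctPar D δ F γ γs) {r : ℝ} (hr : 0 < r) :
    ∃ η : ℝ, 0 < η ∧ ∀ᶠ n in atTop, ∀ (z0 : Circle) (K : Set Circle), (∀ z ∈ K, dist z z0 ≤ η) →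
      ∀ u ∈ dctS (δ n) (F n) (γs n) K, sqDist (triPos (δ n) u) (γ z0) ≤ r ^ 2 := by
  obtain ⟨η, hη, hmod⟩ := dct_modulus h.cont (r := r / 3) (by positivity)
  refine ⟨η, hη, ?_⟩
  filter_upwards [h.small (ε := r / 3) (by positivity)] with n hn z0 K hK u hu
  have hε : (0:ℝ) ≤ r / 3 := by positivity
  have hδ := h.pos n
  obtain ⟨z, hz, h1⟩ := dct_S_near_lim hδ hε hn.2 hu
  have h2 := dct_sqDist_tri (add_nonneg hδ.le hε) hε h1 (hmod z z0 (hK z hz))
  exact h2.trans (pow_le_pow_left₀ (by positivity) (by linarith [hn.1]) 2)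

end par

/-! ### arcs of the parameter circle -/

/-- the closed arc `{e^{it} : a ≤ t ≤ b}`. -/
def dctArc (a b : ℝ) : Set Circle := Circle.exp '' Icc a b

theorem dct_arc_eqns_cite2 : True := by
  have := @dctArc.eq_1
  trivial

theorem dct_arc_preconnected (a b : ℝ) : IsPreconnected (dctArc a b) :=
  isPreconnected_Icc.image _ Circle.exp.continuous.continuousOn

theorem dct_arc_compact (a b : ℝ) : IsCompact (dctArc a b) := isCompact_Icc.image Circle.exp.continuous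

theorem dct_arc_mono {a b a' b' : ℝ} (ha : a' ≤ a) (hb : b ≤ b') : dctArc a b ⊆ dctArc a' b' :=
  image_mono (Icc_subset_Icc ha hb)

theorem dct_arc_shift (a b : ℝ) (k : ℤ) : dctArc (a + k * (2 * Real.pi)) (b + k * (2 * Real.pi)) = dctArc a b := by
  have hper : ∀ (t : ℝ) (j : ℤ), Circle.exp (t + j * (2 * Real.pi)) = Circle.exp t := fun t j =>
    Circle.exp_eq_exp.2 ⟨j, rfl⟩
  ext z
  constructor
  · rintro ⟨t, ⟨h1, h2⟩, rfl⟩
    refine ⟨t - k * (2 * Real.pi), ⟨by linarith, by linarith⟩, ?_⟩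
    rw [← hper (t - k * (2 * Real.pi)) k]
    congr 1; ring
  · rintro ⟨t, ⟨h1, h2⟩, rfl⟩
    exact ⟨t + k * (2 * Real.pi), ⟨by linarith, by linarith⟩, hper t k⟩

theorem dct_arc_union {a b c : ℝ} (hab : a ≤ b) (hbc : b ≤ c) : dctArc a b ∪ dctArc b c = dctArc a c := by
  unfold dctArc
  rw [← image_union, Icc_union_Icc_eq_Icc hab hbc]

/-- the chord. -/
theorem dct_circle_dist (s t : ℝ) : dist (Circle.exp s) (Circle.exp t) = 2 * |Real.sin ((s - t) / 2)| := by
  have h1 : dist (Circle.exp s) (Circle.exp t) = ‖(Circle.exp s : ℂ) - (Circle.exp t : ℂ)‖ := by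
    rw [← dist_eq_norm]; rfl
  have h2 : (Circle.exp s : ℂ) - (Circle.exp t : ℂ)
      = (Circle.exp t : ℂ) * (Complex.exp (Complex.I * ((s - t : ℝ) : ℂ)) - 1) := by
    rw [Circle.coe_exp, Circle.coe_exp, mul_sub, ← Complex.exp_add, mul_one]
    congr 2
    push_cast; ring
  rw [h1, h2, norm_mul, Circle.norm_coe, one_mul, Complex.norm_exp_I_mul_ofReal_sub_one, Real.norm_eq_abs,
    abs_mul, abs_two]

theorem dct_circle_dist_le (s t : ℝ) : dist (Circle.exp s) (Circle.exp t) ≤ |s - t| := by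
  rw [dct_circle_dist]
  have := Real.abs_sin_le_abs (x := (s - t) / 2)
  rw [abs_div, abs_two] at this
  linarith

theorem dct_circle_dist_ge {s t : ℝ} (h : |s - t| ≤ Real.pi) :
    2 / Real.pi * |s - t| ≤ dist (Circle.exp s) (Circle.exp t) := by
  rw [dct_circle_dist]
  have key : ∀ y : ℝ, 0 ≤ y → y ≤ Real.pi → 2 / Real.pi * y ≤ 2 * |Real.sin (y / 2)| := by
    intro y h0 h1
    have h2 := Real.mul_le_sin (x := y / 2) (by linarith) (by linarith)
    have h3 := le_abs_self (Real.sin (y / 2))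
    have e : 2 / Real.pi * y = 2 * (2 / Real.pi * (y / 2)) := by ring
    rw [e]; linarith
  rcases le_total 0 (s - t) with h0 | h0
  · rw [abs_of_nonneg h0] at h ⊢
    exact key _ h0 h
  · rw [abs_of_nonpos h0] at h ⊢
    have := key _ (by linarith : 0 ≤ -(s - t)) h
    rwa [neg_div, Real.sin_neg, abs_neg] at this

/-- every point of the circle has an angle in any window of length `2π`. -/
theorem dct_circle_angle (z : Circle) (t0 : ℝ) : ∃ t : ℝ, |t - t0| ≤ Real.pi ∧ Circle.exp t = z := by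
  have hp : (0:ℝ) < 2 * Real.pi := by positivity
  refine ⟨toIocMod hp (t0 - Real.pi) (z : ℂ).arg, ?_, ?_⟩
  · have := toIocMod_mem_Ioc hp (t0 - Real.pi) (z : ℂ).arg
    rw [abs_le]
    constructor <;> linarith [this.1, this.2]
  · have h1 : toIocMod hp (t0 - Real.pi) (z : ℂ).arg
        = (z : ℂ).arg + (-(toIocDiv hp (t0 - Real.pi) (z : ℂ).arg) : ℤ) * (2 * Real.pi) := by
      have := toIocMod_add_toIocDiv_zsmul hp (t0 - Real.pi) (z : ℂ).arg
      rw [zsmul_eq_mul] at this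
      push_cast
      linarith
    rw [Circle.exp_eq_exp.2 ⟨_, h1⟩, Circle.exp_arg]

/-- a point close to `e^{i t0}` lies on the short arc around it. -/
theorem dct_circle_near {z : Circle} {t0 η : ℝ} (h : dist z (Circle.exp t0) ≤ η) :
    z ∈ dctArc (t0 - Real.pi / 2 * η) (t0 + Real.pi / 2 * η) := by
  obtain ⟨t, ht, rfl⟩ := dct_circle_angle z t0
  have h1 := (dct_circle_dist_ge ht).trans h
  have hpi := Real.pi_pos
  have h2 : |t - t0| ≤ Real.pi / 2 * η := by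
    have : Real.pi / 2 * (2 / Real.pi * |t - t0|) ≤ Real.pi / 2 * η := mul_le_mul_of_nonneg_left h1 (by positivity)
    have e : Real.pi / 2 * (2 / Real.pi * |t - t0|) = |t - t0| := by field_simp
    rwa [e] at this
  have h3 := abs_le.1 h2
  exact ⟨t, ⟨by linarith [h3.1], by linarith [h3.2]⟩, rfl⟩

/-- two arcs whose angles are `η`-separated on both sides are separated in the chord distance. -/
theorem dct_arc_sep {a b c d η : ℝ} (hη : 0 ≤ η) (h1 : b + η ≤ c) (h2 : d + η ≤ a + 2 * Real.pi) :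
    ∀ z ∈ dctArc a b, ∀ w ∈ dctArc c d, 2 / Real.pi * η ≤ dist z w := by
  rintro _ ⟨s, hs, rfl⟩ _ ⟨t, ht, rfl⟩
  have hpi := Real.pi_pos
  have hc : (0:ℝ) ≤ 2 / Real.pi := by positivity
  -- `η ≤ t - s ≤ 2π - η`
  have l1 : η ≤ t - s := by linarith [hs.2, ht.1]
  have l2 : t - s ≤ 2 * Real.pi - η := by linarith [hs.1, ht.2]
  rcases le_total (t - s) Real.pi with h | h
  · have h3 : |s - t| ≤ Real.pi := by rw [abs_sub_comm, abs_of_nonneg (by linarith)]; exact h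
    refine le_trans ?_ (dct_circle_dist_ge h3)
    apply mul_le_mul_of_nonneg_left _ hc
    rw [abs_sub_comm, abs_of_nonneg (by linarith)]; exact l1
  · have e : Circle.exp s = Circle.exp (s + 2 * Real.pi) := (Circle.periodic_exp s).symm
    rw [e]
    have h3 : |s + 2 * Real.pi - t| ≤ Real.pi := by rw [abs_of_nonneg (by linarith)]; linarith
    refine le_trans ?_ (dct_circle_dist_ge h3)
    apply mul_le_mul_of_nonneg_left _ hc
    rw [abs_of_nonneg (by linarith)]; linarith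

end Claimed.Agent.R291
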