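import Claimed.Agent.R291.Dict.C2
import Claimed.Agent.R291.Dict.Arc
import Claimed.Agent.R291.Geo.Region
import Claimed.Agent.R291.Defs.Lat

/-!
# Row 291 (S0539), unit FRZ, part C2c: graph boxes against the lattice approximations      (owner helper25; prefix `dc2_`)

Consumers: BDY (`origin/helper173:notes/R291/sec6b_173.md` wish (F3), `origin/helper128:notes/R291/sec6_128.md` sec. 1-4).
* `Dc2Box.band_out`, `Dc2Box.band_in`, **`dc2_band`**  ONE-SIDED BAND: lattice sites at depth `≤ -a` are outside `F n` (all `n`), sites at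
  depth `≥ a` are interior sites of `F n` (eventually), inside the disc of radius `R` around `p`, as soon as `C R² < a`
* `dc2_lattice_dir`   every unit vector is within 30 degrees of a lattice direction
* `dct_circle_compl_preconnected`   the complement of a connected subset of the circle is connected
* `dc2Gr p t g x = dc2Fr p t x (g x)`, `dc2Par γ p t g I = γ ⁻¹' (dc2Gr p t g '' I)`  parameter arcs over a set `I` of abscissas of a box:
  `Dc2Graph.mem_par(')` (coordinates), `par_preconnected`, `par_compl_preconnected`, `par_isCompact`, `par_isOpen`, `par_nonempty`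
* `Dc2Graph.patch`   at fine mesh every visit near the graph over `[x₁',x₂']` has its parameter over `(x₁,x₂)`; boundary faces there belong to
  the connected piece `hgVis … (dc2Par γ p t g (Ioo x₁ x₂))`
-/

set_option autoImplicit false

open Set Filter Topology
open Claims.C0467

namespace Claimed.Agent.R291

/-! ### the one-sided band -/

section band

variable {D : Set (ℝ × ℝ)} {r C : ℝ} {p t : ℝ × ℝ} {g : ℝ → ℝ}

/-- coordinates of a point of the disc of radius `R`. -/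
theorem dc2_XY_le (ht : t.1 ^ 2 + t.2 ^ 2 = 1) {z : ℝ × ℝ} {R : ℝ} (hR : 0 ≤ R) (hz : sqDist z p ≤ R ^ 2) :
    |dc2X p t z| ≤ R ∧ |dc2Y p t z| ≤ R := by
  rw [dc2_sqDist_XY ht z] at hz
  constructor
  · exact abs_le_of_sq_le_sq (by nlinarith [sq_nonneg (dc2Y p t z)]) hR
  · exact abs_le_of_sq_le_sq (by nlinarith [sq_nonneg (dc2X p t z)]) hR

/-- the graph over `|x| ≤ R` stays in `|y| ≤ C R²`. -/
theorem Dc2Graph.g_le_sq {S : Set (ℝ × ℝ)} (G : Dc2Graph S r C p t g) (hC : 0 ≤ C) {R x : ℝ} (hRr : R ≤ r)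
    (hx : |x| ≤ R) : |g x| ≤ C * R ^ 2 := by
  have h1 := G.quad x (hx.trans hRr)
  have h2 : x ^ 2 ≤ R ^ 2 := sq_le_sq' (by linarith [(abs_le.1 hx).1]) (abs_le.1 hx).2
  exact h1.trans (mul_le_mul_of_nonneg_left h2 hC)

/-- points at depth `≥ a > C R²` in the disc of radius `R` are in `D`. -/
theorem Dc2Box.deep_mem (B : Dc2Box D r C p t g) (hC : 0 ≤ C) {R a : ℝ} (hR : 0 ≤ R) (hRr : R ≤ r) (ha : C * R ^ 2 < a)
    {z : ℝ × ℝ} (hz : sqDist z p ≤ R ^ 2) (hd : a ≤ dc2Y p t z) : z ∈ D := by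
  obtain ⟨hX, hY⟩ := dc2_XY_le B.graph.unit hR hz
  have h1 := abs_le.1 (B.graph.g_le_sq hC hRr hX)
  rw [← dc2Fr_XY (p := p) B.graph.unit z, B.side _ _ (hX.trans hRr) (hY.trans hRr)]
  linarith [h1.2]

/-- points at depth `≤ -a < -C R²` in the disc of radius `R` are outside `closure D`. -/
theorem Dc2Box.deep_not_mem (B : Dc2Box D r C p t g) (hC : 0 ≤ C) {R a : ℝ} (hR : 0 ≤ R) (hRr : R ≤ r)
    (ha : C * R ^ 2 < a) {z : ℝ × ℝ} (hz : sqDist z p ≤ R ^ 2) (hd : dc2Y p t z ≤ -a) : z ∉ closure D := by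
  obtain ⟨hX, hY⟩ := dc2_XY_le B.graph.unit hR hz
  have h1 := abs_le.1 (B.graph.g_le_sq hC hRr hX)
  rw [← dc2Fr_XY (p := p) B.graph.unit z, B.not_closure (hX.trans hRr) (hY.trans hRr)]
  linarith [h1.1]

variable {δ : ℕ → ℝ} {F : ℕ → Finset (ℤ × ℤ)}

/-- **band, outer half** (all `n`). -/
theorem Dc2Box.band_out (B : Dc2Box D r C p t g) (h : IsInsideApprox D δ F) (hC : 0 ≤ C) {R a : ℝ} (hR : 0 ≤ R)
    (hRr : R ≤ r) (ha : C * R ^ 2 < a) (n : ℕ) {u : ℤ × ℤ} (hz : sqDist (triPos (δ n) u) p ≤ R ^ 2)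
    (hd : dc2Y p t (triPos (δ n) u) ≤ -a) : u ∉ F n := fun hu =>
  B.deep_not_mem hC hR hRr ha hz hd (subset_closure (hg_center_mem_D h hu))

/-- the compact piece of `D` at depth `≥ a`. -/
theorem dc2_deep_compact (p t : ℝ × ℝ) (R a : ℝ) : IsCompact {z : ℝ × ℝ | sqDist z p ≤ R ^ 2 ∧ a ≤ dc2Y p t z} := by
  apply Metric.isCompact_of_isClosed_isBounded
  · exact (isClosed_le (hg_continuous_sqDist_left p) continuous_const).inter
      (isClosed_le continuous_const dc2_continuous_Y)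
  · refine (Metric.isBounded_closedBall (x := p) (r := |R|)).subset ?_
    rintro z ⟨hz, -⟩
    rw [Metric.mem_closedBall]
    have h1 := (hg_dist_sq_le_sqDist z p).trans hz
    rw [← sq_abs R] at h1
    exact abs_le_of_sq_le_sq' h1 (abs_nonneg R) |>.2

/-- **band, inner half** (eventually): faces meeting the deep part are interior faces. -/
theorem Dc2Box.band_in (B : Dc2Box D r C p t g) (hDo : IsOpen D) (h : IsInsideApprox D δ F) (hC : 0 ≤ C) {R a : ℝ}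
    (hR : 0 ≤ R) (hRr : R ≤ r) (ha : C * R ^ 2 < a) :
    ∀ᶠ n in atTop, ∀ u : ℤ × ℤ, sqDist (triPos (δ n) u) p ≤ R ^ 2 → a ≤ dc2Y p t (triPos (δ n) u) → u ∈ latInt (F n) := by
  have hK := dc2_deep_compact p t R a
  have hKD : {z : ℝ × ℝ | sqDist z p ≤ R ^ 2 ∧ a ≤ dc2Y p t z} ⊆ D := fun z hz =>
    B.deep_mem hC hR hRr ha hz.1 hz.2
  filter_upwards [hg_faces_meeting_compact hDo h hK hKD] with n hn u hz hd
  exact lat_mem_int.2 (hn u ⟨triPos (δ n) u, hg_center_mem (δ n) u, hz, hd⟩)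

end band

/-- **(F3) ONE-SIDED BAND.**  `J t` is the inward normal at `p`, the depth of a site is `dc2Y p t (triPos (δ n) u)`. -/
theorem dc2_band {D : Set (ℝ × ℝ)} (hD : IsC2JordanDomain D) :
    ∃ r0 : ℝ, 0 < r0 ∧ ∃ C : ℝ, 0 < C ∧ C * r0 ≤ 1 / 4 ∧ ∀ p ∈ frontier D, ∃ t g, Dc2Box D r0 C p t g ∧
      ∀ (δ : ℕ → ℝ) (F : ℕ → Finset (ℤ × ℤ)), IsInsideApprox D δ F → ∀ R a : ℝ, 0 ≤ R → R ≤ r0 → C * R ^ 2 < a →
        (∀ n u, sqDist (triPos (δ n) u) p ≤ R ^ 2 → dc2Y p t (triPos (δ n) u) ≤ -a → u ∉ F n) ∧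
        ∀ᶠ n in atTop, ∀ u : ℤ × ℤ, sqDist (triPos (δ n) u) p ≤ R ^ 2 → a ≤ dc2Y p t (triPos (δ n) u) →
          u ∈ latInt (F n) := by
  obtain ⟨r0, hr0, C, hC, hCr, hB⟩ := dc2_boxes hD
  refine ⟨r0, hr0, C, hC, hCr, fun p hp => ?_⟩
  obtain ⟨t, g, B⟩ := hB p hp
  refine ⟨t, g, B, fun δ F h R a hR hRr ha => ⟨fun n u hz hd => B.band_out h hC.le hR hRr ha n hz hd, ?_⟩⟩
  exact B.band_in hD.1 h hC.le hR hRr ha

/-! ### lattice directions -/

/-- **every unit vector is within 30 degrees of a lattice direction.** -/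
theorem dc2_lattice_dir {ν : ℝ × ℝ} (hν : ν.1 ^ 2 + ν.2 ^ 2 = 1) :
    ∃ d ∈ latDirs, Real.sqrt 3 / 2 ≤ (triPos 1 d).1 * ν.1 + (triPos 1 d).2 * ν.2 := by
  set s := Real.sqrt 3 with hs
  have hs2 : s * s = 3 := Real.mul_self_sqrt (by norm_num)
  have hs0 : 0 < s := Real.sqrt_pos.2 (by norm_num)
  set u1 := ν.1 with hu1
  set u2 := ν.1 / 2 + s / 2 * ν.2 with hu2
  set u3 := -ν.1 / 2 + s / 2 * ν.2 with hu3
  have e1 : u1 = u2 - u3 := by rw [hu2, hu3]; ring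
  have e2 : u2 ^ 2 + u3 ^ 2 - u2 * u3 = 3 / 4 := by
    rw [hu2, hu3]
    have : (ν.1 / 2 + s / 2 * ν.2) ^ 2 + (-ν.1 / 2 + s / 2 * ν.2) ^ 2 - (ν.1 / 2 + s / 2 * ν.2) * (-ν.1 / 2 + s / 2 * ν.2)
        = 3 / 4 * ν.1 ^ 2 + (s * s) / 4 * ν.2 ^ 2 := by ring
    rw [this, hs2]
    linear_combination (3 / 4 : ℝ) * hν
  -- one of the three squares is at least `3/4`
  have key : 3 / 4 ≤ u1 ^ 2 ∨ 3 / 4 ≤ u2 ^ 2 ∨ 3 / 4 ≤ u3 ^ 2 := by
    by_cases h : u2 * u3 ≤ 0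
    · left; rw [e1]; nlinarith
    · have h' : 0 < u2 * u3 := not_le.1 h
      right
      rcases le_total (u3 ^ 2) (u2 ^ 2) with h1 | h1
      · left
        have h2 : u3 ^ 2 ≤ u2 * u3 := by
          have : (u3 ^ 2) ^ 2 ≤ (u2 * u3) ^ 2 := by nlinarith [sq_nonneg u3]
          exact (abs_le_of_sq_le_sq' this h'.le).2
        nlinarith
      · right
        have h2 : u2 ^ 2 ≤ u2 * u3 := by
          have : (u2 ^ 2) ^ 2 ≤ (u2 * u3) ^ 2 := by nlinarith [sq_nonneg u2]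
          exact (abs_le_of_sq_le_sq' this h'.le).2
        nlinarith
  have root : ∀ u : ℝ, 3 / 4 ≤ u ^ 2 → s / 2 ≤ u ∨ s / 2 ≤ -u := by
    intro u hu
    have h1 : (s / 2) ^ 2 ≤ u ^ 2 := by
      have : (s / 2) ^ 2 = 3 / 4 := by rw [div_pow, sq, hs2]; norm_num
      rw [this]; exact hu
    have h2 := sq_le_sq.1 h1
    rw [abs_of_pos (by positivity : 0 < s / 2)] at h2
    exact le_abs.1 h2
  have p1 : ∀ a b : ℤ, (triPos 1 (a, b)).1 * ν.1 + (triPos 1 (a, b)).2 * ν.2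
      = ((a : ℝ) + (b : ℝ) / 2) * ν.1 + ((b : ℝ) * s / 2) * ν.2 := by
    intro a b
    unfold triPos
    simp only [one_mul, hs]
  rcases key with h | h | h
  · rcases root _ h with h | h
    · refine ⟨(1, 0), by decide, ?_⟩
      rw [p1]; push_cast; rw [hu1] at h; linarith
    · refine ⟨(-1, 0), by decide, ?_⟩
      rw [p1]; push_cast; rw [hu1] at h; linarith
  · rcases root _ h with h | h
    · refine ⟨(0, 1), by decide, ?_⟩
      rw [p1]; push_cast; rw [hu2] at h; linarith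
    · refine ⟨(0, -1), by decide, ?_⟩
      rw [p1]; push_cast; rw [hu2] at h; linarith
  · rcases root _ h with h | h
    · refine ⟨(-1, 1), by decide, ?_⟩
      rw [p1]; push_cast; rw [hu3] at h; linarith
    · refine ⟨(1, -1), by decide, ?_⟩
      rw [p1]; push_cast; rw [hu3] at h; linarith

/-! ### connected subsets of the circle -/

/-- two angles in a closed window of length `2π` with the same image: equal, or the two end points. -/
theorem dct_exp_eq_window {t0 a b : ℝ} (ha : a ∈ Icc t0 (t0 + 2 * Real.pi)) (hb : b ∈ Icc t0 (t0 + 2 * Real.pi))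
    (hab : a ≤ b) (h : Circle.exp a = Circle.exp b) : a = b ∨ (a = t0 ∧ b = t0 + 2 * Real.pi) := by
  obtain ⟨m, hm⟩ := Circle.exp_eq_exp.1 h
  have hpi := Real.pi_pos
  -- `b - a = -m 2π ∈ [0, 2π]`
  have h1 : (0:ℝ) ≤ -(m:ℝ) * (2 * Real.pi) := by linarith
  have h2 : -(m:ℝ) * (2 * Real.pi) ≤ 2 * Real.pi := by linarith [ha.1, hb.2]
  have h3 : (0:ℝ) ≤ -(m:ℝ) := by
    by_contra hc
    have : -(m:ℝ) * (2 * Real.pi) < 0 := mul_neg_of_neg_of_pos (not_le.1 hc) (by positivity)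
    linarith
  have h4 : -(m:ℝ) ≤ 1 := by
    by_contra hc
    have : 1 * (2 * Real.pi) < -(m:ℝ) * (2 * Real.pi) := mul_lt_mul_of_pos_right (not_le.1 hc) (by positivity)
    linarith
  have h3' : 0 ≤ -m := by exact_mod_cast h3
  have h4' : -m ≤ 1 := by exact_mod_cast h4
  have h5 : m = 0 ∨ m = -1 := by omega
  rcases h5 with rfl | rfl
  · left; simpa using hm
  · right
    push_cast at hm
    constructor <;> linarith [ha.1, hb.2]

/-- **the complement of a connected subset of the circle is connected.** -/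
theorem dct_circle_compl_preconnected {A : Set Circle} (hA : IsPreconnected A) : IsPreconnected Aᶜ := by
  by_cases hne : (Aᶜ).Nonempty
  swap
  · rw [Set.not_nonempty_iff_eq_empty] at hne
    rw [hne]; exact isPreconnected_empty
  obtain ⟨θ0, hθ0⟩ := hne
  set t0 := (θ0 : ℂ).arg with ht0
  have hE0 : Circle.exp t0 = θ0 := Circle.exp_arg θ0
  have hpi := Real.pi_pos
  have hE1 : Circle.exp (t0 + 2 * Real.pi) = θ0 := by rw [Circle.periodic_exp t0, hE0]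
  set W := Icc t0 (t0 + 2 * Real.pi) with hW
  have hcov : ∀ z : Circle, ∃ s ∈ W, Circle.exp s = z := by
    intro z
    obtain ⟨s, hs, rfl⟩ := dct_circle_angle z (t0 + Real.pi)
    have := abs_le.1 hs
    exact ⟨s, ⟨by linarith [this.1], by linarith [this.2]⟩, rfl⟩
  set J := {s | s ∈ W ∧ Circle.exp s ∈ A} with hJ
  -- `J` is order connected
  have hJo : ∀ a ∈ J, ∀ b ∈ J, ∀ c, a ≤ c → c ≤ b → c ∈ J := by
    intro a ha b hb c hac hcb
    have hcW : c ∈ W := ⟨ha.1.1.trans hac, hcb.trans hb.1.2⟩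
    refine ⟨hcW, ?_⟩
    by_contra hcA
    have c1 : IsClosed (Circle.exp '' Icc t0 c) := (isCompact_Icc.image Circle.exp.continuous).isClosed
    have c2 : IsClosed (Circle.exp '' Icc c (t0 + 2 * Real.pi)) := (isCompact_Icc.image Circle.exp.continuous).isClosed
    have hsub : A ⊆ Circle.exp '' Icc t0 c ∪ Circle.exp '' Icc c (t0 + 2 * Real.pi) := by
      intro z _
      obtain ⟨s, hs, rfl⟩ := hcov z
      rcases le_total s c with h | h
      · exact Or.inl ⟨s, ⟨hs.1, h⟩, rfl⟩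
      · exact Or.inr ⟨s, ⟨h, hs.2⟩, rfl⟩
    obtain ⟨z, hzA, ⟨s, hs, hsz⟩, ⟨s', hs', hsz'⟩⟩ := (isPreconnected_closed_iff.1 hA) _ _ c1 c2 hsub
      ⟨Circle.exp a, ha.2, a, ⟨ha.1.1, hac⟩, rfl⟩ ⟨Circle.exp b, hb.2, b, ⟨hcb, hb.1.2⟩, rfl⟩
    rcases dct_exp_eq_window (t0 := t0) ⟨hs.1, hs.2.trans hcW.2⟩ ⟨hcW.1.trans hs'.1, hs'.2⟩ (hs.2.trans hs'.1)
      (hsz.trans hsz'.symm) with h | ⟨h, -⟩
    · have : s = c := le_antisymm hs.2 (h ▸ hs'.1)
      rw [this] at hsz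
      exact hcA (hsz ▸ hzA)
    · rw [h, hE0] at hsz
      exact hθ0 (hsz ▸ hzA)
  by_cases hJne : J.Nonempty
  swap
  · -- `A` is empty
    have : Aᶜ = univ := by
      ext z
      simp only [mem_compl_iff, mem_univ, iff_true]
      intro hz
      obtain ⟨s, hs, rfl⟩ := hcov z
      exact hJne ⟨s, hs, hz⟩
    rw [this]; exact isPreconnected_univ
  obtain ⟨j0, hj0⟩ := hJne
  set L := {s | s ∈ Icc t0 j0 ∧ s ∉ J} with hL
  set Rr := {s | s ∈ Icc j0 (t0 + 2 * Real.pi) ∧ s ∉ J} with hRr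
  have hLo : L.OrdConnected := by
    rw [ordConnected_iff]
    intro a ha b hb _ c hc
    refine ⟨⟨ha.1.1.trans hc.1, hc.2.trans hb.1.2⟩, fun hcJ => ?_⟩
    exact hb.2 (hJo c hcJ j0 hj0 b hc.2 hb.1.2)
  have hRo : Rr.OrdConnected := by
    rw [ordConnected_iff]
    intro a ha b hb _ c hc
    refine ⟨⟨ha.1.1.trans hc.1, hc.2.trans hb.1.2⟩, fun hcJ => ?_⟩
    exact ha.2 (hJo j0 hj0 c hcJ a ha.1.1 hc.1)
  have hLc : IsPreconnected (Circle.exp '' L) := hLo.isPreconnected.image _ Circle.exp.continuous.continuousOn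
  have hRc : IsPreconnected (Circle.exp '' Rr) := hRo.isPreconnected.image _ Circle.exp.continuous.continuousOn
  have h0L : θ0 ∈ Circle.exp '' L :=
    ⟨t0, ⟨⟨le_rfl, hj0.1.1⟩, fun h => hθ0 (hE0 ▸ h.2)⟩, hE0⟩
  have h0R : θ0 ∈ Circle.exp '' Rr :=
    ⟨t0 + 2 * Real.pi, ⟨⟨hj0.1.2, le_rfl⟩, fun h => hθ0 (hE1 ▸ h.2)⟩, hE1⟩
  have heq : Aᶜ = Circle.exp '' L ∪ Circle.exp '' Rr := by
    ext z
    constructor
    · intro hz
      obtain ⟨s, hs, rfl⟩ := hcov z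
      rcases le_total s j0 with h | h
      · exact Or.inl ⟨s, ⟨⟨hs.1, h⟩, fun hsJ => hz hsJ.2⟩, rfl⟩
      · exact Or.inr ⟨s, ⟨⟨h, hs.2⟩, fun hsJ => hz hsJ.2⟩, rfl⟩
    · rintro (⟨s, hs, rfl⟩ | ⟨s, hs, rfl⟩)
      · intro hz
        exact hs.2 ⟨⟨hs.1.1, hs.1.2.trans hj0.1.2⟩, hz⟩
      · intro hz
        exact hs.2 ⟨⟨hj0.1.1.trans hs.1.1, hs.1.2⟩, hz⟩
  rw [heq]
  exact IsPreconnected.union θ0 h0L h0R hLc hRc

/-! ### parameter arcs over the abscissas of a box -/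

/-- the graph map of a box. -/
def dc2Gr (p t : ℝ × ℝ) (g : ℝ → ℝ) (x : ℝ) : ℝ × ℝ := dc2Fr p t x (g x)

/-- the parameters of `γ` over a set `I` of abscissas of the box. -/
def dc2Par (γ : Circle → ℝ × ℝ) (p t : ℝ × ℝ) (g : ℝ → ℝ) (I : Set ℝ) : Set Circle := γ ⁻¹' (dc2Gr p t g '' I)

theorem dc2c_eqns_cite : True := by
  have := @dc2Gr.eq_1; have := @dc2Par.eq_1
  trivial

section arcs

variable {D : Set (ℝ × ℝ)} {r C : ℝ} {p t : ℝ × ℝ} {g : ℝ → ℝ} {γ : Circle → ℝ × ℝ}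

theorem Dc2Graph.g_continuousOn {S : Set (ℝ × ℝ)} (G : Dc2Graph S r C p t g) : ContinuousOn g (Icc (-r) r) := by
  have hL : LipschitzOnWith (Real.toNNReal |2 * C * r|) g (Icc (-r) r) := by
    apply LipschitzOnWith.of_dist_le_mul
    intro x hx y hy
    rw [Real.dist_eq, Real.dist_eq, Real.coe_toNNReal _ (abs_nonneg _)]
    have h1 := G.slope r x y le_rfl (abs_le.2 hx) (abs_le.2 hy)
    exact h1.trans (mul_le_mul_of_nonneg_right (le_abs_self _) (abs_nonneg _))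
  exact hL.continuousOn

theorem Dc2Graph.gr_continuousOn {S : Set (ℝ × ℝ)} (G : Dc2Graph S r C p t g) :
    ContinuousOn (dc2Gr p t g) (Icc (-r) r) := by
  have h1 : ContinuousOn (fun x => ((x, g x) : ℝ × ℝ)) (Icc (-r) r) := continuousOn_id.prodMk G.g_continuousOn
  exact (dc2_continuous_Fr (p := p) (t := t)).comp_continuousOn h1

theorem Dc2Graph.gr_mem {S : Set (ℝ × ℝ)} (G : Dc2Graph S r C p t g) (hr : 0 < r) (hCr : C * r ≤ 1 / 4) {x : ℝ}
    (hx : |x| ≤ r) : dc2Gr p t g x ∈ S :=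
  (G.fr x (g x) hx ((G.g_le hr hCr hx).trans (by linarith))).2 rfl

/-- membership in a parameter arc, in coordinates. -/
theorem Dc2Graph.mem_par (G : Dc2Graph (frontier D) r C p t g) (hr : 0 < r) (hCr : C * r ≤ 1 / 4)
    (hγ : range γ = frontier D) {I : Set ℝ} (hI : I ⊆ Icc (-r) r) (θ : Circle) :
    θ ∈ dc2Par γ p t g I ↔ dc2X p t (γ θ) ∈ I ∧ |dc2Y p t (γ θ)| ≤ r := by
  constructor
  · rintro ⟨x, hx, hxθ⟩
    have hxr : |x| ≤ r := abs_le.2 (hI hx)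
    have h1 : γ θ = dc2Fr p t x (g x) := hxθ.symm
    rw [h1, dc2X_Fr G.unit, dc2Y_Fr G.unit]
    exact ⟨hx, (G.g_le hr hCr hxr).trans (by linarith)⟩
  · rintro ⟨hX, hY⟩
    have hXr : |dc2X p t (γ θ)| ≤ r := abs_le.2 (hI hX)
    have h1 : γ θ ∈ frontier D := hγ ▸ mem_range_self θ
    rw [← dc2Fr_XY (p := p) G.unit (γ θ), G.fr _ _ hXr hY] at h1
    refine ⟨dc2X p t (γ θ), hX, ?_⟩
    show dc2Fr p t (dc2X p t (γ θ)) (g (dc2X p t (γ θ))) = γ θ
    rw [← h1, dc2Fr_XY G.unit]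

/-- the same with a strict bound on the normal coordinate. -/
theorem Dc2Graph.mem_par' (G : Dc2Graph (frontier D) r C p t g) (hr : 0 < r) (hCr : C * r ≤ 1 / 4)
    (hγ : range γ = frontier D) {I : Set ℝ} (hI : I ⊆ Icc (-r) r) (θ : Circle) :
    θ ∈ dc2Par γ p t g I ↔ dc2X p t (γ θ) ∈ I ∧ |dc2Y p t (γ θ)| < r := by
  constructor
  · rintro ⟨x, hx, hxθ⟩
    have hxr : |x| ≤ r := abs_le.2 (hI hx)
    have h1 : γ θ = dc2Fr p t x (g x) := hxθ.symm
    rw [h1, dc2X_Fr G.unit, dc2Y_Fr G.unit]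
    exact ⟨hx, lt_of_le_of_lt (G.g_le hr hCr hxr) (by linarith)⟩
  · rintro ⟨hX, hY⟩
    exact (G.mem_par hr hCr hγ hI θ).2 ⟨hX, hY.le⟩

theorem dc2_par_mono {I I' : Set ℝ} (h : I ⊆ I') : dc2Par γ p t g I ⊆ dc2Par γ p t g I' :=
  preimage_mono (image_mono h)

/-- **a parameter arc over an interval is connected.** -/
theorem Dc2Graph.par_preconnected (G : Dc2Graph (frontier D) r C p t g) (hr : 0 < r) (hCr : C * r ≤ 1 / 4)
    (hc : Continuous γ) (hi : Function.Injective γ) (hγ : range γ = frontier D) {I : Set ℝ} (hI : I ⊆ Icc (-r) r)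
    (hIo : I.OrdConnected) : IsPreconnected (dc2Par γ p t g I) := by
  have h1 : IsPreconnected (dc2Gr p t g '' I) := hIo.isPreconnected.image _ (G.gr_continuousOn.mono hI)
  apply h1.preimage_of_isClosedMap hi hc.isClosedMap
  rintro _ ⟨x, hx, rfl⟩
  rw [hγ]
  exact G.gr_mem hr hCr (abs_le.2 (hI hx))

/-- **the complementary arc is connected.** -/
theorem Dc2Graph.par_compl_preconnected (G : Dc2Graph (frontier D) r C p t g) (hr : 0 < r) (hCr : C * r ≤ 1 / 4)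
    (hc : Continuous γ) (hi : Function.Injective γ) (hγ : range γ = frontier D) {I : Set ℝ} (hI : I ⊆ Icc (-r) r)
    (hIo : I.OrdConnected) : IsPreconnected (dc2Par γ p t g I)ᶜ :=
  dct_circle_compl_preconnected (G.par_preconnected hr hCr hc hi hγ hI hIo)

theorem Dc2Graph.par_isClosed (G : Dc2Graph (frontier D) r C p t g) (hr : 0 < r) (hCr : C * r ≤ 1 / 4)
    (hc : Continuous γ) (hγ : range γ = frontier D) {I : Set ℝ} (hI : I ⊆ Icc (-r) r) (hIc : IsClosed I) :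
    IsClosed (dc2Par γ p t g I) := by
  have e : dc2Par γ p t g I = {θ | dc2X p t (γ θ) ∈ I} ∩ {θ | |dc2Y p t (γ θ)| ≤ r} := by
    ext θ; exact G.mem_par hr hCr hγ hI θ
  rw [e]
  exact (hIc.preimage (dc2_continuous_X.comp hc)).inter
    (isClosed_le (dc2_continuous_Y.comp hc).abs continuous_const)

theorem Dc2Graph.par_isCompact (G : Dc2Graph (frontier D) r C p t g) (hr : 0 < r) (hCr : C * r ≤ 1 / 4)
    (hc : Continuous γ) (hγ : range γ = frontier D) {I : Set ℝ} (hI : I ⊆ Icc (-r) r) (hIc : IsClosed I) :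
    IsCompact (dc2Par γ p t g I) := (G.par_isClosed hr hCr hc hγ hI hIc).isCompact

theorem Dc2Graph.par_isOpen (G : Dc2Graph (frontier D) r C p t g) (hr : 0 < r) (hCr : C * r ≤ 1 / 4)
    (hc : Continuous γ) (hγ : range γ = frontier D) {I : Set ℝ} (hI : I ⊆ Icc (-r) r) (hIo : IsOpen I) :
    IsOpen (dc2Par γ p t g I) := by
  have e : dc2Par γ p t g I = {θ | dc2X p t (γ θ) ∈ I} ∩ {θ | |dc2Y p t (γ θ)| < r} := by
    ext θ; exact G.mem_par' hr hCr hγ hI θ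
  rw [e]
  exact (hIo.preimage (dc2_continuous_X.comp hc)).inter
    (isOpen_lt (dc2_continuous_Y.comp hc).abs continuous_const)

/-- every abscissa of the box has a parameter. -/
theorem Dc2Graph.par_nonempty (G : Dc2Graph (frontier D) r C p t g) (hr : 0 < r) (hCr : C * r ≤ 1 / 4)
    (hγ : range γ = frontier D) {I : Set ℝ} {x : ℝ} (hx : x ∈ I) (hxr : |x| ≤ r) :
    ∃ θ ∈ dc2Par γ p t g I, γ θ = dc2Gr p t g x := by
  have h1 := G.gr_mem hr hCr hxr
  rw [← hγ] at h1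
  obtain ⟨θ, hθ⟩ := h1
  exact ⟨θ, ⟨x, hx, hθ.symm⟩, hθ⟩

variable {δ : ℕ → ℝ} {F : ℕ → Finset (ℤ × ℤ)} {γs : ℕ → Circle → ℝ × ℝ}

/-- **patches of the boundary layer in a box**: at fine mesh every visit of the discrete curve near the graph over `[x₁', x₂']` has its
parameter over `(x₁, x₂)`; hence every boundary face near that piece of graph belongs to the (connected) piece
`hgVis … (dc2Par γ p t g (Ioo x₁ x₂))` and to no piece with parameters outside. -/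
theorem Dc2Graph.patch (G : Dc2Graph (frontier D) r C p t g) (hr : 0 < r) (hCr : C * r ≤ 1 / 4)
    (h : IsInsideApprox D δ F) (hb : HgBd D δ F γ γs) {x1 x2 x1' x2' : ℝ} (h1 : -r ≤ x1) (h2 : x2 ≤ r) (h3 : x1 < x1')
    (h4 : x2' < x2) :
    ∃ ε : ℝ, 0 < ε ∧ ∀ᶠ n in atTop, ∀ u : ℤ × ℤ, (∃ x ∈ Icc x1' x2', dist (triPos (δ n) u) (dc2Gr p t g x) < ε) →
      (∀ θ, γs n θ ∈ hexFace (δ n) u → θ ∈ dc2Par γ p t g (Ioo x1 x2)) ∧
      (u ∈ latBd (F n) → u ∈ hgVis (δ n) (F n) (γs n) (dc2Par γ p t g (Ioo x1 x2))) := by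
  have hIc : Icc x1' x2' ⊆ Icc (-r) r := Icc_subset_Icc (by linarith) (by linarith)
  have hIo : Ioo x1 x2 ⊆ Icc (-r) r := fun x hx => ⟨by linarith [hx.1], by linarith [hx.2]⟩
  have hJ := G.par_isCompact hr hCr hb.1 hb.2.2.1 hIc isClosed_Icc
  have hN := G.par_isOpen hr hCr hb.1 hb.2.2.1 hIo isOpen_Ioo
  have hJN : dc2Par γ p t g (Icc x1' x2') ⊆ dc2Par γ p t g (Ioo x1 x2) :=
    dc2_par_mono fun x hx => ⟨by linarith [hx.1], by linarith [hx.2]⟩
  obtain ⟨ε, hε, hloc⟩ := hg_param_local hb hJ hN hJN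
  refine ⟨ε / 2, half_pos hε, ?_⟩
  have hmesh : ∀ᶠ n in atTop, δ n < ε / 2 := h.2.1.eventually (gt_mem_nhds (by positivity))
  filter_upwards [hloc, hmesh] with n hn1 hn2 u hu
  obtain ⟨x, hx, hd⟩ := hu
  obtain ⟨θ', hθ', hθx⟩ := G.par_nonempty (γ := γ) hr hCr hb.2.2.1 hx (abs_le.2 (hIc hx))
  have hvis : ∀ θ, γs n θ ∈ hexFace (δ n) u → θ ∈ dc2Par γ p t g (Ioo x1 x2) := by
    intro θ hθ
    apply hn1 θ' hθ' θ
    have e2 : dist (γs n θ) (triPos (δ n) u) ≤ δ n := hg_dist_center_le (h.1 n) hθ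
    have := dist_triangle (γs n θ) (triPos (δ n) u) (γ θ')
    rw [hθx] at this ⊢
    linarith
  refine ⟨hvis, fun hu => ?_⟩
  obtain ⟨huF, v, huv, hv⟩ := lat_mem_bd.1 hu
  obtain ⟨-, θ, -, hz⟩ := hg_boundary_vis (h.1 n) (hb.2.2.2.1 n).2.2 huF hv huv
  exact ⟨huF, θ, hvis θ hz, hz⟩

end arcs

end Claimed.Agent.R291
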