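/-
R291 (S0539), unit FRZ, sub-unit C2 : the CURVE ANALYSIS half.        owner: helper119
(head of FRZ: helper25, who consumes this file in `Dict/C2.lean`.)

Input: the data of the frozen `IsC2JordanDomain`:  a `C^2`, `l`-periodic curve `c : ℝ → ℝ × ℝ`,
injective on `[0, l)`, with nowhere vanishing derivative.   Everything here is about the curve only.

  (K1) `dc2_K1`  : `c s = c s' → ∃ k : ℤ, s' - s = k * l`
  (K2) `dc2_K2`  : `∃ m > 0, ∀ s, m ^ 2 ≤ (deriv c s).1 ^ 2 + (deriv c s).2 ^ 2`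
  (K3) `dc2_K3`  : `∃ M > 0, ∀ s s', |(deriv c s).i - (deriv c s').i| ≤ M * |s - s'|`
  (K4) `dc2_K4`  : `∀ η ∈ (0, l/2], ∃ ρ > 0, ∀ s s', sqDist (c s) (c s') < ρ ^ 2 → ∃ k : ℤ, |s' - s - k l| < η`
  (K5) `dc2_K5_fst`, `dc2_K5_snd` : component derivatives.
  (K6) frame API `dc2Fr p t x y`, coordinates `dc2X p t z`, `dc2Y p t z` (Section 6)
  (K7) `dc2_1d` : one-dimensional inverse function package (Section 7)
  (K8) `dc2_graph` : uniform local graph theorem (the curve in the box = graph of `g`, `|g x| ≤ C x²`).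

The plane `ℝ × ℝ` carries the SUP metric: all Euclidean statements are in the frozen `sqDist`.
-/
import Claimed.Agent.R291.Defs.Frozen

set_option autoImplicit false

namespace Claimed.Agent.R291

open Claims.C0467 Set Filter Topology

/-- The curve data of the frozen `IsC2JordanDomain`. -/
structure Dc2Curve (c : ℝ → ℝ × ℝ) (l : ℝ) : Prop where
  pos : 0 < l
  smooth : ContDiff ℝ 2 c
  per : Function.Periodic c l
  inj : Set.InjOn c (Set.Ico 0 l)
  reg : ∀ s, deriv c s ≠ 0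

/-- the frozen predicate unfolds to a `Dc2Curve` whose range is the frontier. -/
theorem dc2_of_domain {D : Set (ℝ × ℝ)} (hD : IsC2JordanDomain D) :
    IsOpen D ∧ Bornology.IsBounded D ∧
      ∃ (c : ℝ → ℝ × ℝ) (l : ℝ), Dc2Curve c l ∧ Set.range c = frontier D := by
  obtain ⟨h1, h2, c, l, h3, h4, h5, h6, h7, h8⟩ := hD
  exact ⟨h1, h2, c, l, ⟨h3, h4, h5, h6, h7⟩, h8⟩

section basic

variable {c : ℝ → ℝ × ℝ} {l : ℝ}

/-! ### 0. Reduction modulo the period -/

/-- reduction of a parameter to `[a, a + l)`. -/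
theorem dc2_reduce (hl : 0 < l) (a s : ℝ) :
    ∃ k : ℤ, s - k * l ∈ Set.Ico a (a + l) := by
  refine ⟨toIcoDiv hl a s, ?_⟩
  have h := toIcoMod_mem_Ico hl a s
  rw [← self_sub_toIcoDiv_zsmul] at h
  simpa using h

theorem dc2_per_int {β : Type*} {f : ℝ → β} (hf : Function.Periodic f l) (s : ℝ) (k : ℤ) :
    f (s - k * l) = f s := by
  have := hf.sub_zsmul_eq (x := s) k
  simpa using this

theorem dc2_per_int_add {β : Type*} {f : ℝ → β} (hf : Function.Periodic f l) (s : ℝ) (k : ℤ) :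
    f (s + k * l) = f s := by
  have := dc2_per_int hf s (-k)
  simpa using this

/-- a continuous periodic real function is bounded above. -/
theorem dc2_per_bdd {f : ℝ → ℝ} (hl : 0 < l) (hf : Function.Periodic f l) (hc : Continuous f) :
    ∃ B : ℝ, ∀ s, f s ≤ B := by
  obtain ⟨x, -, hx⟩ := (isCompact_Icc (a := (0:ℝ)) (b := l)).exists_isMaxOn
    ⟨0, by simp [hl.le]⟩ hc.continuousOn
  refine ⟨f x, fun s => ?_⟩
  obtain ⟨k, hk⟩ := dc2_reduce hl 0 s
  rw [← dc2_per_int hf s k]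
  exact hx ⟨hk.1, by have := hk.2; linarith⟩

/-- a continuous periodic real function attains its minimum. -/
theorem dc2_per_min {f : ℝ → ℝ} (hl : 0 < l) (hf : Function.Periodic f l) (hc : Continuous f) :
    ∃ x : ℝ, ∀ s, f x ≤ f s := by
  obtain ⟨x, -, hx⟩ := (isCompact_Icc (a := (0:ℝ)) (b := l)).exists_isMinOn
    ⟨0, by simp [hl.le]⟩ hc.continuousOn
  refine ⟨x, fun s => ?_⟩
  obtain ⟨k, hk⟩ := dc2_reduce hl 0 s
  rw [← dc2_per_int hf s k]
  exact hx ⟨hk.1, by have := hk.2; linarith⟩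

/-- the derivative of a periodic function is periodic. -/
theorem dc2_per_deriv {E : Type*} [NormedAddCommGroup E] [NormedSpace ℝ E] {f : ℝ → E}
    (hf : Function.Periodic f l) : Function.Periodic (deriv f) l := by
  intro s
  have h1 : (fun x => f (x + l)) = f := funext hf
  have h2 := deriv_comp_add_const f l s
  rw [h1] at h2
  exact h2.symm

/-! ### 1. Regularity -/

theorem Dc2Curve.differentiable (h : Dc2Curve c l) : Differentiable ℝ c :=
  h.smooth.differentiable (by norm_num)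

theorem Dc2Curve.continuous (h : Dc2Curve c l) : Continuous c := h.smooth.continuous

theorem Dc2Curve.hasDerivAt (h : Dc2Curve c l) (s : ℝ) : HasDerivAt c (deriv c s) s :=
  (h.differentiable s).hasDerivAt

theorem Dc2Curve.contDiff_deriv (h : Dc2Curve c l) : ContDiff ℝ 1 (deriv c) := by
  have h2 : ContDiff ℝ (1 + 1) c := by
    have : ((1 : WithTop ℕ∞) + 1) = 2 := by norm_num
    rw [this]; exact h.smooth
  exact (contDiff_succ_iff_deriv.1 h2).2.2

theorem Dc2Curve.continuous_deriv (h : Dc2Curve c l) : Continuous (deriv c) :=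
  h.contDiff_deriv.continuous

theorem Dc2Curve.differentiable_deriv (h : Dc2Curve c l) : Differentiable ℝ (deriv c) :=
  h.contDiff_deriv.differentiable (by norm_num)

theorem Dc2Curve.continuous_deriv2 (h : Dc2Curve c l) : Continuous (deriv (deriv c)) :=
  h.contDiff_deriv.continuous_deriv (by norm_num)

theorem Dc2Curve.per_deriv (h : Dc2Curve c l) : Function.Periodic (deriv c) l :=
  dc2_per_deriv h.per

theorem Dc2Curve.per_deriv2 (h : Dc2Curve c l) : Function.Periodic (deriv (deriv c)) l :=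
  dc2_per_deriv h.per_deriv

/-- **(K5)**, first component. -/
theorem dc2_K5_fst (h : Dc2Curve c l) (s : ℝ) :
    HasDerivAt (fun s => (c s).1) (deriv c s).1 s := by
  have h1 := (h.hasDerivAt s).hasFDerivAt
  have h2 := h1.fst
  have h3 := h2.hasDerivAt
  simpa using h3

/-- **(K5)**, second component. -/
theorem dc2_K5_snd (h : Dc2Curve c l) (s : ℝ) :
    HasDerivAt (fun s => (c s).2) (deriv c s).2 s := by
  have h1 := (h.hasDerivAt s).hasFDerivAt
  have h2 := h1.snd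
  have h3 := h2.hasDerivAt
  simpa using h3

/-! ### 2. (K1) -/

/-- **(K1)** two parameters of the same point differ by a multiple of the period. -/
theorem dc2_K1 (h : Dc2Curve c l) {s s' : ℝ} (hs : c s = c s') :
    ∃ k : ℤ, s' - s = k * l := by
  obtain ⟨k, hk⟩ := dc2_reduce h.pos 0 s
  obtain ⟨k', hk'⟩ := dc2_reduce h.pos 0 s'
  rw [zero_add] at hk hk'
  have h1 : c (s - k * l) = c (s' - k' * l) := by
    rw [dc2_per_int h.per, dc2_per_int h.per, hs]
  have h2 := h.inj hk hk' h1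
  refine ⟨k' - k, ?_⟩
  push_cast
  linarith

theorem dc2_K1_iff (h : Dc2Curve c l) {s s' : ℝ} :
    c s = c s' ↔ ∃ k : ℤ, s' - s = k * l := by
  refine ⟨dc2_K1 h, ?_⟩
  rintro ⟨k, hk⟩
  have : s' = s + k * l := by linarith
  rw [this, dc2_per_int_add h.per]

/-! ### 3. (K2) -/

/-- **(K2)** the speed is bounded below. -/
theorem dc2_K2 (h : Dc2Curve c l) :
    ∃ m : ℝ, 0 < m ∧ ∀ s, m ^ 2 ≤ (deriv c s).1 ^ 2 + (deriv c s).2 ^ 2 := by
  have hc : Continuous (fun s => (deriv c s).1 ^ 2 + (deriv c s).2 ^ 2) := by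
    have := h.continuous_deriv
    fun_prop
  have hp : Function.Periodic (fun s => (deriv c s).1 ^ 2 + (deriv c s).2 ^ 2) l := by
    intro s
    simp only [h.per_deriv s]
  obtain ⟨x, hx⟩ := dc2_per_min h.pos hp hc
  have hpos : 0 < (deriv c x).1 ^ 2 + (deriv c x).2 ^ 2 := by
    by_contra hcon
    have h0 : (deriv c x).1 ^ 2 + (deriv c x).2 ^ 2 = 0 :=
      le_antisymm (not_lt.1 hcon) (by positivity)
    have h1 : (deriv c x).1 = 0 := by nlinarith [sq_nonneg (deriv c x).1, sq_nonneg (deriv c x).2]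
    have h2 : (deriv c x).2 = 0 := by nlinarith [sq_nonneg (deriv c x).1, sq_nonneg (deriv c x).2]
    exact h.reg x (Prod.ext h1 h2)
  refine ⟨Real.sqrt ((deriv c x).1 ^ 2 + (deriv c x).2 ^ 2), Real.sqrt_pos.2 hpos, fun s => ?_⟩
  rw [Real.sq_sqrt hpos.le]
  exact hx s

/-- the speed is bounded above. -/
theorem dc2_speed_le (h : Dc2Curve c l) :
    ∃ V : ℝ, 0 < V ∧ ∀ s, (deriv c s).1 ^ 2 + (deriv c s).2 ^ 2 ≤ V ^ 2 := by
  have hc : Continuous (fun s => (deriv c s).1 ^ 2 + (deriv c s).2 ^ 2) := by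
    have := h.continuous_deriv
    fun_prop
  have hp : Function.Periodic (fun s => (deriv c s).1 ^ 2 + (deriv c s).2 ^ 2) l := by
    intro s
    simp only [h.per_deriv s]
  obtain ⟨B, hB⟩ := dc2_per_bdd h.pos hp hc
  refine ⟨Real.sqrt (|B| + 1), Real.sqrt_pos.2 (by positivity), fun s => ?_⟩
  rw [Real.sq_sqrt (by positivity)]
  have := hB s
  have := le_abs_self B
  linarith

/-! ### 4. (K3) -/

/-- the derivative is Lipschitz (sup norm form). -/
theorem dc2_K3_norm (h : Dc2Curve c l) :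
    ∃ M : ℝ, 0 < M ∧ ∀ s s', ‖deriv c s - deriv c s'‖ ≤ M * |s - s'| := by
  have hc : Continuous (fun s => ‖deriv (deriv c) s‖) := h.continuous_deriv2.norm
  have hp : Function.Periodic (fun s => ‖deriv (deriv c) s‖) l := by
    intro s
    simp only [h.per_deriv2 s]
  obtain ⟨B, hB⟩ := dc2_per_bdd h.pos hp hc
  refine ⟨|B| + 1, by positivity, fun s s' => ?_⟩
  have := Convex.norm_image_sub_le_of_norm_deriv_le (𝕜 := ℝ) (f := deriv c) (s := Set.univ)
    (x := s') (y := s) (C := |B| + 1)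
    (fun x _ => h.differentiable_deriv x)
    (fun x _ => (hB x).trans ((le_abs_self B).trans (by linarith)))
    convex_univ (mem_univ _) (mem_univ _)
  simpa [Real.norm_eq_abs] using this

/-- **(K3)** the components of the derivative are Lipschitz. -/
theorem dc2_K3 (h : Dc2Curve c l) :
    ∃ M : ℝ, 0 < M ∧ ∀ s s', |(deriv c s).1 - (deriv c s').1| ≤ M * |s - s'| ∧
      |(deriv c s).2 - (deriv c s').2| ≤ M * |s - s'| := by
  obtain ⟨M, hM, hL⟩ := dc2_K3_norm h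
  refine ⟨M, hM, fun s s' => ?_⟩
  have h1 := hL s s'
  have h2 : |(deriv c s - deriv c s').1| ≤ ‖deriv c s - deriv c s'‖ := by
    rw [← Real.norm_eq_abs]; exact norm_fst_le _
  have h3 : |(deriv c s - deriv c s').2| ≤ ‖deriv c s - deriv c s'‖ := by
    rw [← Real.norm_eq_abs]; exact norm_snd_le _
  exact ⟨h2.trans h1, h3.trans h1⟩

/-! ### 5. (K4) -/

theorem dc2_sqDist_eq_zero {z w : ℝ × ℝ} : sqDist z w = 0 ↔ z = w := by
  unfold sqDist
  constructor
  · intro h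
    have h1 : z.1 - w.1 = 0 := by nlinarith [sq_nonneg (z.1 - w.1), sq_nonneg (z.2 - w.2)]
    have h2 : z.2 - w.2 = 0 := by nlinarith [sq_nonneg (z.1 - w.1), sq_nonneg (z.2 - w.2)]
    exact Prod.ext (by linarith) (by linarith)
  · rintro rfl; simp

theorem dc2_sqDist_nonneg (z w : ℝ × ℝ) : 0 ≤ sqDist z w := by
  unfold sqDist; positivity

theorem dc2_continuous_sqDist : Continuous (fun p : (ℝ × ℝ) × (ℝ × ℝ) => sqDist p.1 p.2) := by
  unfold sqDist; fun_prop

/-- **(K4)** uniform separation: points of the curve which are close have close parameters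
modulo the period. -/
theorem dc2_K4 (h : Dc2Curve c l) {η : ℝ} (hη : 0 < η) (hη2 : η ≤ l / 2) :
    ∃ ρ : ℝ, 0 < ρ ∧ ∀ s s', sqDist (c s) (c s') < ρ ^ 2 → ∃ k : ℤ, |s' - s - k * l| < η := by
  have hl := h.pos
  set K : Set (ℝ × ℝ) := (Set.Icc 0 l ×ˢ Set.Icc 0 (2 * l)) ∩
    {p | η ≤ p.2 - p.1 ∧ p.2 - p.1 ≤ l - η} with hK
  have hKc : IsCompact K := by
    refine ((isCompact_Icc).prod isCompact_Icc).inter_right ?_
    have h1 : IsClosed {p : ℝ × ℝ | η ≤ p.2 - p.1} :=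
      isClosed_le continuous_const (by fun_prop)
    have h2 : IsClosed {p : ℝ × ℝ | p.2 - p.1 ≤ l - η} :=
      isClosed_le (by fun_prop) continuous_const
    exact h1.inter h2
  have hKn : K.Nonempty := by
    refine ⟨(0, η), ⟨⟨⟨le_refl _, hl.le⟩, ⟨hη.le, by simp only; linarith⟩⟩, ?_⟩⟩
    constructor <;> simp only <;> linarith
  have hcont : ContinuousOn (fun p : ℝ × ℝ => sqDist (c p.1) (c p.2)) K := by
    have := h.continuous
    have h2 : Continuous (fun p : ℝ × ℝ => sqDist (c p.1) (c p.2)) :=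
      dc2_continuous_sqDist.comp (by fun_prop : Continuous fun p : ℝ × ℝ => (c p.1, c p.2))
    exact h2.continuousOn
  obtain ⟨p0, hp0, hmin⟩ := hKc.exists_isMinOn hKn hcont
  have hpos : 0 < sqDist (c p0.1) (c p0.2) := by
    refine lt_of_le_of_ne (dc2_sqDist_nonneg _ _) (fun h0 => ?_)
    obtain ⟨k, hk⟩ := dc2_K1 h (dc2_sqDist_eq_zero.1 h0.symm)
    obtain ⟨-, h1, h2⟩ := hp0
    rw [hk] at h1 h2
    have hk0 : (0 : ℝ) < k := by
      by_contra hcon
      have : (k : ℝ) * l ≤ 0 := mul_nonpos_of_nonpos_of_nonneg (not_lt.1 hcon) hl.le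
      linarith
    have hk1 : (k : ℝ) < 1 := by
      by_contra hcon
      have : 1 * l ≤ (k : ℝ) * l := mul_le_mul_of_nonneg_right (not_lt.1 hcon) hl.le
      linarith
    have a1 : (0 : ℤ) < k := by exact_mod_cast hk0
    have a2 : k < (1 : ℤ) := by exact_mod_cast hk1
    omega
  refine ⟨Real.sqrt (sqDist (c p0.1) (c p0.2)), Real.sqrt_pos.2 hpos, fun s s' hss => ?_⟩
  rw [Real.sq_sqrt hpos.le] at hss
  obtain ⟨k, hk⟩ := dc2_reduce hl 0 s
  obtain ⟨k', hk'⟩ := dc2_reduce hl (s - k * l) s'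
  rw [zero_add] at hk
  by_cases hA : (s' - k' * l) - (s - k * l) < η
  · refine ⟨k' - k, ?_⟩
    push_cast
    rw [abs_lt]
    constructor
    · have := hk'.1; linarith
    · linarith
  by_cases hB : l - η < (s' - k' * l) - (s - k * l)
  · refine ⟨k' - k + 1, ?_⟩
    push_cast
    rw [abs_lt]
    constructor
    · linarith
    · have := hk'.2; linarith
  exfalso
  have hmem : ((s - k * l, s' - k' * l) : ℝ × ℝ) ∈ K := by
    refine ⟨⟨⟨hk.1, hk.2.le⟩, ⟨?_, ?_⟩⟩, ⟨not_lt.1 hA, not_lt.1 hB⟩⟩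
    · have := hk'.1; have := hk.1; simp only; linarith
    · have := hk'.2; have := hk.2; simp only; linarith
  have h3 : sqDist (c p0.1) (c p0.2) ≤ sqDist (c (s - k * l)) (c (s' - k' * l)) := hmin hmem
  rw [dc2_per_int h.per, dc2_per_int h.per] at h3
  exact absurd hss (not_lt.2 h3)

end basic

/-! ### 6. The frame  (tangent `t`, normal `J t = (-t.2, t.1)`) -/

/-- the point with coordinates `(x, y)` in the frame (origin `p`, tangent `t`, normal `J t`). -/
def dc2Fr (p t : ℝ × ℝ) (x y : ℝ) : ℝ × ℝ :=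
  (p.1 + x * t.1 - y * t.2, p.2 + x * t.2 + y * t.1)

/-- tangential coordinate. -/
def dc2X (p t z : ℝ × ℝ) : ℝ := (z.1 - p.1) * t.1 + (z.2 - p.2) * t.2

/-- normal coordinate. -/
def dc2Y (p t z : ℝ × ℝ) : ℝ := -(z.1 - p.1) * t.2 + (z.2 - p.2) * t.1

theorem dc2Fr_eqns_cite (p t : ℝ × ℝ) (x y : ℝ) (z : ℝ × ℝ) :
    dc2Fr p t x y = (p.1 + x * t.1 - y * t.2, p.2 + x * t.2 + y * t.1) ∧
    dc2X p t z = (z.1 - p.1) * t.1 + (z.2 - p.2) * t.2 ∧
    dc2Y p t z = -(z.1 - p.1) * t.2 + (z.2 - p.2) * t.1 := ⟨rfl, rfl, rfl⟩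

section frame

variable {p t : ℝ × ℝ}

theorem dc2Fr_XY (ht : t.1 ^ 2 + t.2 ^ 2 = 1) (z : ℝ × ℝ) :
    dc2Fr p t (dc2X p t z) (dc2Y p t z) = z := by
  unfold dc2Fr dc2X dc2Y
  ext
  · show p.1 + ((z.1 - p.1) * t.1 + (z.2 - p.2) * t.2) * t.1
      - (-(z.1 - p.1) * t.2 + (z.2 - p.2) * t.1) * t.2 = z.1
    linear_combination (z.1 - p.1) * ht
  · show p.2 + ((z.1 - p.1) * t.1 + (z.2 - p.2) * t.2) * t.2
      + (-(z.1 - p.1) * t.2 + (z.2 - p.2) * t.1) * t.1 = z.2
    linear_combination (z.2 - p.2) * ht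

theorem dc2X_Fr (ht : t.1 ^ 2 + t.2 ^ 2 = 1) (x y : ℝ) : dc2X p t (dc2Fr p t x y) = x := by
  unfold dc2Fr dc2X
  show (p.1 + x * t.1 - y * t.2 - p.1) * t.1 + (p.2 + x * t.2 + y * t.1 - p.2) * t.2 = x
  linear_combination x * ht

theorem dc2Y_Fr (ht : t.1 ^ 2 + t.2 ^ 2 = 1) (x y : ℝ) : dc2Y p t (dc2Fr p t x y) = y := by
  unfold dc2Fr dc2Y
  show -(p.1 + x * t.1 - y * t.2 - p.1) * t.2 + (p.2 + x * t.2 + y * t.1 - p.2) * t.1 = y
  linear_combination y * ht

theorem dc2Fr_inj (ht : t.1 ^ 2 + t.2 ^ 2 = 1) {x y x' y' : ℝ}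
    (h : dc2Fr p t x y = dc2Fr p t x' y') : x = x' ∧ y = y' := by
  constructor
  · rw [← dc2X_Fr (p := p) ht x y, h, dc2X_Fr ht]
  · rw [← dc2Y_Fr (p := p) ht x y, h, dc2Y_Fr ht]

@[simp] theorem dc2Fr_zero : dc2Fr p t 0 0 = p := by
  unfold dc2Fr; simp

@[simp] theorem dc2X_self : dc2X p t p = 0 := by
  unfold dc2X; simp

@[simp] theorem dc2Y_self : dc2Y p t p = 0 := by
  unfold dc2Y; simp

theorem dc2_sqDist_Fr_Fr (ht : t.1 ^ 2 + t.2 ^ 2 = 1) (x y x' y' : ℝ) :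
    sqDist (dc2Fr p t x y) (dc2Fr p t x' y') = (x - x') ^ 2 + (y - y') ^ 2 := by
  unfold sqDist dc2Fr
  show (p.1 + x * t.1 - y * t.2 - (p.1 + x' * t.1 - y' * t.2)) ^ 2
    + (p.2 + x * t.2 + y * t.1 - (p.2 + x' * t.2 + y' * t.1)) ^ 2 = _
  linear_combination ((x - x') ^ 2 + (y - y') ^ 2) * ht

theorem dc2_sqDist_Fr (ht : t.1 ^ 2 + t.2 ^ 2 = 1) (x y : ℝ) :
    sqDist (dc2Fr p t x y) p = x ^ 2 + y ^ 2 := by
  have := dc2_sqDist_Fr_Fr (p := p) ht x y 0 0
  simpa using this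

theorem dc2_sqDist_Fr' (ht : t.1 ^ 2 + t.2 ^ 2 = 1) (x y : ℝ) :
    sqDist p (dc2Fr p t x y) = x ^ 2 + y ^ 2 := by
  have := dc2_sqDist_Fr_Fr (p := p) ht 0 0 x y
  simpa using this

theorem dc2_sqDist_XY (ht : t.1 ^ 2 + t.2 ^ 2 = 1) (z : ℝ × ℝ) :
    sqDist z p = dc2X p t z ^ 2 + dc2Y p t z ^ 2 := by
  conv_lhs => rw [← dc2Fr_XY (p := p) ht z]
  exact dc2_sqDist_Fr ht _ _

theorem dc2Fr_neg (x y : ℝ) : dc2Fr p (-t) x y = dc2Fr p t (-x) (-y) := by
  unfold dc2Fr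
  ext
  · show p.1 + x * (-t.1) - y * (-t.2) = p.1 + -x * t.1 - -y * t.2
    ring
  · show p.2 + x * (-t.2) + y * (-t.1) = p.2 + -x * t.2 + -y * t.1
    ring

theorem dc2_continuous_Fr : Continuous (fun q : ℝ × ℝ => dc2Fr p t q.1 q.2) := by
  unfold dc2Fr; fun_prop

theorem dc2_continuous_X : Continuous (dc2X p t) := by
  unfold dc2X; fun_prop

theorem dc2_continuous_Y : Continuous (dc2Y p t) := by
  unfold dc2Y; fun_prop

theorem dc2_abs_le_one (ht : t.1 ^ 2 + t.2 ^ 2 = 1) : |t.1| ≤ 1 ∧ |t.2| ≤ 1 := by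
  constructor
  · exact abs_le_one_iff_mul_self_le_one.2 (by nlinarith [sq_nonneg t.2])
  · exact abs_le_one_iff_mul_self_le_one.2 (by nlinarith [sq_nonneg t.1])

/-- the open box is an open neighbourhood of `p`. -/
theorem dc2_isOpen_box (r : ℝ) : IsOpen {z | |dc2X p t z| < r ∧ |dc2Y p t z| < r} := by
  have h1 : IsOpen {z | |dc2X p t z| < r} :=
    isOpen_lt (dc2_continuous_X.abs) continuous_const
  have h2 : IsOpen {z | |dc2Y p t z| < r} :=
    isOpen_lt (dc2_continuous_Y.abs) continuous_const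
  exact h1.inter h2

end frame

/-! ### 7. A one-dimensional inverse function package -/

section oneD

variable {X Y X' Y' : ℝ → ℝ} {s0 a L η : ℝ}

theorem dc2_1d_incr (hX : ∀ s, HasDerivAt X (X' s) s)
    (hX' : ∀ s, |s - s0| ≤ η → a ≤ X' s) {s s' : ℝ} (hs : |s - s0| ≤ η) (hs' : |s' - s0| ≤ η)
    (hss : s ≤ s') : a * (s' - s) ≤ X s' - X s := by
  have hc : Continuous X := continuous_iff_continuousAt.2 fun s => (hX s).continuousAt
  refine Convex.mul_sub_le_image_sub_of_le_deriv (D := Set.Icc (s0 - η) (s0 + η))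
    (convex_Icc _ _) hc.continuousOn (fun x _ => (hX x).differentiableAt.differentiableWithinAt)
    (fun x hx => ?_) s ?_ s' ?_ hss
  · rw [(hX x).deriv]
    have hx' := interior_subset hx
    exact hX' x (abs_le.2 ⟨by linarith [hx'.1], by linarith [hx'.2]⟩)
  · rw [abs_le] at hs; exact ⟨by linarith, by linarith⟩
  · rw [abs_le] at hs'; exact ⟨by linarith, by linarith⟩

theorem dc2_1d_abs (hX : ∀ s, HasDerivAt X (X' s) s)
    (hX' : ∀ s, |s - s0| ≤ η → a ≤ X' s) {s s' : ℝ} (hs : |s - s0| ≤ η) (hs' : |s' - s0| ≤ η) :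
    a * |s' - s| ≤ |X s' - X s| := by
  rcases le_total s s' with h | h
  · have := dc2_1d_incr hX hX' hs hs' h
    rw [abs_of_nonneg (by linarith : 0 ≤ s' - s)]
    exact this.trans (le_abs_self _)
  · have := dc2_1d_incr hX hX' hs' hs h
    rw [abs_sub_comm s' s, abs_sub_comm (X s') (X s), abs_of_nonneg (by linarith : 0 ≤ s - s')]
    exact this.trans (le_abs_self _)

theorem dc2_1d_lip (hL : 0 ≤ L) (hY : ∀ s, HasDerivAt Y (Y' s) s)
    (hY' : ∀ s, |Y' s| ≤ L * |s - s0|) {σ s s' : ℝ} (hs : |s - s0| ≤ σ) (hs' : |s' - s0| ≤ σ) :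
    |Y s' - Y s| ≤ L * σ * |s' - s| := by
  have := Convex.norm_image_sub_le_of_norm_hasDerivWithin_le (𝕜 := ℝ) (f := Y) (f' := Y')
    (s := Set.Icc (s0 - σ) (s0 + σ)) (x := s) (y := s') (C := L * σ)
    (fun x _ => (hY x).hasDerivWithinAt)
    (fun x hx => by
      rw [Real.norm_eq_abs]
      refine (hY' x).trans (mul_le_mul_of_nonneg_left ?_ hL)
      exact abs_le.2 ⟨by linarith [hx.1], by linarith [hx.2]⟩)
    (convex_Icc _ _)
    (by rw [abs_le] at hs; exact ⟨by linarith, by linarith⟩)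
    (by rw [abs_le] at hs'; exact ⟨by linarith, by linarith⟩)
  simpa [Real.norm_eq_abs] using this

/-- **1D package.**  `X` increasing with slope `≥ a` on `|s - s0| ≤ η`, `|Y'| ≤ L |s - s0|`:
the curve `(X, Y)` is over `|x| ≤ a η` the graph of a function `g` with `|g x| ≤ (L/a²) x²`. -/
theorem dc2_1d (ha : 0 < a) (hL : 0 ≤ L) (hη : 0 < η)
    (hX : ∀ s, HasDerivAt X (X' s) s) (hY : ∀ s, HasDerivAt Y (Y' s) s)
    (hX0 : X s0 = 0) (hY0 : Y s0 = 0)
    (hX' : ∀ s, |s - s0| ≤ η → a ≤ X' s) (hY' : ∀ s, |Y' s| ≤ L * |s - s0|) :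
    ∃ g : ℝ → ℝ,
      (∀ s, |s - s0| ≤ η → Y s = g (X s)) ∧
      (∀ x, |x| ≤ a * η → ∃ s, |s - s0| ≤ η ∧ a * |s - s0| ≤ |x| ∧ X s = x ∧ Y s = g x) ∧
      (∀ x, |x| ≤ a * η → |g x| ≤ L / a ^ 2 * x ^ 2) ∧
      (∀ r x x', r ≤ a * η → |x| ≤ r → |x'| ≤ r → |g x - g x'| ≤ L / a ^ 2 * r * |x - x'|) := by
  classical
  set g : ℝ → ℝ := fun x =>
    if h : ∃ s, |s - s0| ≤ η ∧ X s = x then Y h.choose else 0 with hg
  have hc : Continuous X := continuous_iff_continuousAt.2 fun s => (hX s).continuousAt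
  have h1 : ∀ s, |s - s0| ≤ η → Y s = g (X s) := by
    intro s hs
    have hex : ∃ s', |s' - s0| ≤ η ∧ X s' = X s := ⟨s, hs, rfl⟩
    have hgs : g (X s) = Y hex.choose := by simp only [hg]; rw [dif_pos hex]
    obtain ⟨e1, e2⟩ := hex.choose_spec
    have h3 := dc2_1d_abs hX hX' hs e1
    rw [e2, sub_self, abs_zero] at h3
    have h4 : |hex.choose - s| ≤ 0 := by
      by_contra hcon
      have := mul_pos ha (not_le.1 hcon)
      linarith
    have h5 : hex.choose = s := by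
      have := abs_nonpos_iff.1 h4
      linarith
    rw [hgs, h5]
  have h2 : ∀ x, |x| ≤ a * η → ∃ s, |s - s0| ≤ η ∧ a * |s - s0| ≤ |x| ∧ X s = x ∧ Y s = g x := by
    intro x hx
    have e0 : |s0 - s0| ≤ η := by simp [hη.le]
    have e1 : |s0 - η - s0| ≤ η := by
      rw [show s0 - η - s0 = -η by ring, abs_neg, abs_of_pos hη]
    have e2 : |s0 + η - s0| ≤ η := by
      rw [show s0 + η - s0 = η by ring, abs_of_pos hη]
    have l1 := dc2_1d_incr hX hX' e1 e0 (by linarith)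
    have l2 := dc2_1d_incr hX hX' e0 e2 (by linarith)
    rw [hX0] at l1 l2
    rw [abs_le] at hx
    have hmem : x ∈ Set.Icc (X (s0 - η)) (X (s0 + η)) := by
      constructor
      · have : a * (s0 - (s0 - η)) = a * η := by ring
        linarith
      · have : a * (s0 + η - s0) = a * η := by ring
        linarith
    obtain ⟨s, hs, hsx⟩ := intermediate_value_Icc (by linarith : s0 - η ≤ s0 + η)
      hc.continuousOn hmem
    have hs' : |s - s0| ≤ η := abs_le.2 ⟨by linarith [hs.1], by linarith [hs.2]⟩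
    refine ⟨s, hs', ?_, hsx, ?_⟩
    · have := dc2_1d_abs hX hX' e0 hs'
      rwa [hX0, sub_zero, hsx] at this
    · rw [h1 s hs', hsx]
  have ha2 : 0 < a ^ 2 := by positivity
  refine ⟨g, h1, h2, ?_, ?_⟩
  · intro x hx
    obtain ⟨s, hs, hsa, hsx, hsy⟩ := h2 x hx
    rw [← hsy]
    have e0 : |s0 - s0| ≤ |s - s0| := by simp
    have h3 := dc2_1d_lip hL hY hY' e0 le_rfl
    rw [hY0, sub_zero] at h3
    have h4 : (a * |s - s0|) ^ 2 ≤ x ^ 2 := by
      rw [← sq_abs x]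
      exact pow_le_pow_left₀ (by positivity) hsa 2
    have h5 : |s - s0| * |s - s0| ≤ x ^ 2 / a ^ 2 := by
      rw [le_div_iff₀ ha2]
      nlinarith
    calc |Y s| ≤ L * (|s - s0| * |s - s0|) := by rw [← mul_assoc]; exact h3
      _ ≤ L * (x ^ 2 / a ^ 2) := mul_le_mul_of_nonneg_left h5 hL
      _ = L / a ^ 2 * x ^ 2 := by ring
  · intro r x x' hr hx hx'
    obtain ⟨s, hs, hsa, hsx, hsy⟩ := h2 x (hx.trans hr)
    obtain ⟨s', hs', hsa', hsx', hsy'⟩ := h2 x' (hx'.trans hr)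
    rw [← hsy, ← hsy']
    have hr0 : 0 ≤ r := (abs_nonneg x).trans hx
    have b1 : |s - s0| ≤ r / a := by
      rw [le_div_iff₀ ha]; linarith
    have b2 : |s' - s0| ≤ r / a := by
      rw [le_div_iff₀ ha]; linarith
    have h3 := dc2_1d_lip hL hY hY' b2 b1
    have h4 := dc2_1d_abs hX hX' hs' hs
    rw [hsx, hsx'] at h4
    have h5 : |s - s'| ≤ |x - x'| / a := by
      rw [le_div_iff₀ ha]; linarith
    calc |Y s - Y s'| ≤ L * (r / a) * |s - s'| := h3
      _ ≤ L * (r / a) * (|x - x'| / a) :=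
          mul_le_mul_of_nonneg_left h5 (by positivity)
      _ = L / a ^ 2 * r * |x - x'| := by field_simp

end oneD

/-! ### 8. The local graph theorem -/

section graph

variable {c : ℝ → ℝ × ℝ} {l : ℝ}

theorem dc2_hasDerivAt_X (h : Dc2Curve c l) (p t : ℝ × ℝ) (s : ℝ) :
    HasDerivAt (fun s => dc2X p t (c s)) ((deriv c s).1 * t.1 + (deriv c s).2 * t.2) s := by
  unfold dc2X
  exact (((dc2_K5_fst h s).sub_const p.1).mul_const t.1).add
    (((dc2_K5_snd h s).sub_const p.2).mul_const t.2)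

theorem dc2_hasDerivAt_Y (h : Dc2Curve c l) (p t : ℝ × ℝ) (s : ℝ) :
    HasDerivAt (fun s => dc2Y p t (c s)) (-(deriv c s).1 * t.2 + (deriv c s).2 * t.1) s := by
  unfold dc2Y
  exact ((((dc2_K5_fst h s).sub_const p.1).neg).mul_const t.2).add
    (((dc2_K5_snd h s).sub_const p.2).mul_const t.1)

/-- **Local graph theorem.**  With constants uniform along the curve: in the frame at `c s0`
(tangent `t = c'(s0)/|c'(s0)|`) the curve is, inside the box `|x|, |y| ≤ r0`, exactly the graph of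
a function `g` with `|g x| ≤ C x²` and Lipschitz constant `2 C r` on `|x| ≤ r`. -/
theorem dc2_graph (h : Dc2Curve c l) :
    ∃ r0 : ℝ, 0 < r0 ∧ ∃ C : ℝ, 0 < C ∧ C * r0 ≤ 1 / 4 ∧ ∀ s0 : ℝ,
      ∃ t : ℝ × ℝ, t.1 ^ 2 + t.2 ^ 2 = 1 ∧
        (∃ n : ℝ, 0 < n ∧ deriv c s0 = (n * t.1, n * t.2)) ∧ ∃ g : ℝ → ℝ,
        (∀ x, |x| ≤ r0 → |g x| ≤ C * x ^ 2) ∧
        (∀ r x x', r ≤ r0 → |x| ≤ r → |x'| ≤ r → |g x - g x'| ≤ 2 * C * r * |x - x'|) ∧
        (∀ x y, |x| ≤ r0 → |y| ≤ r0 → (dc2Fr (c s0) t x y ∈ Set.range c ↔ y = g x)) := by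
  obtain ⟨m, hm, hK2⟩ := dc2_K2 h
  obtain ⟨M, hM, hK3⟩ := dc2_K3 h
  have hl := h.pos
  set L : ℝ := 2 * M with hLdef
  set a : ℝ := m / 2 with hadef
  have hL : 0 < L := by positivity
  have ha : 0 < a := by positivity
  set η : ℝ := min (m / (2 * L)) (l / 2) with hηdef
  have hη : 0 < η := lt_min (by positivity) (by positivity)
  have hη1 : η ≤ m / (2 * L) := min_le_left _ _
  have hη2 : η ≤ l / 2 := min_le_right _ _
  obtain ⟨ρ, hρ, hK4⟩ := dc2_K4 h hη hη2
  set C : ℝ := L / a ^ 2 with hCdef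
  have hC : 0 < C := by positivity
  set r0 : ℝ := min (a * η) (min (ρ / 2) (1 / (4 * C))) with hr0def
  have hr0 : 0 < r0 := lt_min (by positivity) (lt_min (by positivity) (by positivity))
  have hr1 : r0 ≤ a * η := min_le_left _ _
  have hr2 : r0 ≤ ρ / 2 := (min_le_right _ _).trans (min_le_left _ _)
  have hr3 : r0 ≤ 1 / (4 * C) := (min_le_right _ _).trans (min_le_right _ _)
  refine ⟨r0, hr0, C, hC, ?_, fun s0 => ?_⟩
  · calc C * r0 ≤ C * (1 / (4 * C)) := mul_le_mul_of_nonneg_left hr3 hC.le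
      _ = 1 / 4 := by field_simp
  set v := deriv c s0 with hv
  set n : ℝ := Real.sqrt (v.1 ^ 2 + v.2 ^ 2) with hn
  have hq : 0 ≤ v.1 ^ 2 + v.2 ^ 2 := by positivity
  have hmn : m ≤ n := Real.le_sqrt_of_sq_le (hK2 s0)
  have hn0 : 0 < n := lt_of_lt_of_le hm hmn
  have hn2 : n ^ 2 = v.1 ^ 2 + v.2 ^ 2 := Real.sq_sqrt hq
  set t : ℝ × ℝ := (v.1 / n, v.2 / n) with htdef
  have ht1 : t.1 = v.1 / n := rfl
  have ht2 : t.2 = v.2 / n := rfl
  have ht : t.1 ^ 2 + t.2 ^ 2 = 1 := by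
    rw [ht1, ht2, div_pow, div_pow, ← add_div, ← hn2]
    exact div_self (by positivity)
  obtain ⟨hta, htb⟩ := dc2_abs_le_one ht
  have hlin : ∀ (α β A : ℝ) (τ σ : ℝ), |α| ≤ A → |β| ≤ A → |τ| ≤ 1 → |σ| ≤ 1 →
      |α * τ + β * σ| ≤ 2 * A := by
    intro α β A τ σ h1 h2 h3 h4
    have hA : 0 ≤ A := (abs_nonneg α).trans h1
    calc |α * τ + β * σ| ≤ |α * τ| + |β * σ| := abs_add_le _ _
      _ = |α| * |τ| + |β| * |σ| := by rw [abs_mul, abs_mul]
      _ ≤ A * 1 + A * 1 := add_le_add (mul_le_mul h1 h3 (abs_nonneg _) hA)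
          (mul_le_mul h2 h4 (abs_nonneg _) hA)
      _ = 2 * A := by ring
  have hX's0 : v.1 * t.1 + v.2 * t.2 = n := by
    rw [ht1, ht2]
    field_simp
    linarith
  have hY's0 : -v.1 * t.2 + v.2 * t.1 = 0 := by
    rw [ht1, ht2]; ring
  have hX' : ∀ s, |s - s0| ≤ η → a ≤ (deriv c s).1 * t.1 + (deriv c s).2 * t.2 := by
    intro s hs
    obtain ⟨k1, k2⟩ := hK3 s s0
    have h1 := hlin _ _ _ t.1 t.2 k1 k2 hta htb
    have h2 : ((deriv c s).1 - (deriv c s0).1) * t.1 + ((deriv c s).2 - (deriv c s0).2) * t.2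
        = ((deriv c s).1 * t.1 + (deriv c s).2 * t.2) - n := by
      rw [← hX's0]; ring
    rw [h2] at h1
    have h3 := (abs_le.1 h1).1
    have h4 : L * η ≤ m / 2 := by
      calc L * η ≤ L * (m / (2 * L)) := mul_le_mul_of_nonneg_left hη1 hL.le
        _ = m / 2 := by field_simp
    have h5 : 2 * (M * |s - s0|) ≤ L * η := by
      rw [hLdef, mul_assoc]
      exact mul_le_mul_of_nonneg_left (mul_le_mul_of_nonneg_left hs hM.le) (by norm_num)
    rw [hadef]
    linarith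
  have hY' : ∀ s, |-(deriv c s).1 * t.2 + (deriv c s).2 * t.1| ≤ L * |s - s0| := by
    intro s
    obtain ⟨k1, k2⟩ := hK3 s s0
    have k1' : |-((deriv c s).1 - (deriv c s0).1)| ≤ M * |s - s0| := by rwa [abs_neg]
    have h1 := hlin _ _ _ t.2 t.1 k1' k2 htb hta
    have h2 : -((deriv c s).1 - (deriv c s0).1) * t.2 + ((deriv c s).2 - (deriv c s0).2) * t.1
        = -(deriv c s).1 * t.2 + (deriv c s).2 * t.1 := by
      have := hY's0
      linear_combination (-1 : ℝ) * this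
    rw [h2] at h1
    rw [hLdef, mul_assoc]
    exact h1
  obtain ⟨g, g1, g2, g3, g4⟩ := dc2_1d (X := fun s => dc2X (c s0) t (c s))
    (Y := fun s => dc2Y (c s0) t (c s)) (s0 := s0) ha hL.le hη
    (dc2_hasDerivAt_X h (c s0) t) (dc2_hasDerivAt_Y h (c s0) t) (by simp) (by simp) hX' hY'
  refine ⟨t, ht, ⟨n, hn0, ?_⟩, g, fun x hx => g3 x (hx.trans hr1), ?_, ?_⟩
  · ext
    · show v.1 = n * (v.1 / n)
      field_simp
    · show v.2 = n * (v.2 / n)
      field_simp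
  · intro r x x' hr hx hx'
    have hr0' : 0 ≤ r := (abs_nonneg x).trans hx
    refine (g4 r x x' (hr.trans hr1) hx hx').trans ?_
    have : 0 ≤ C * r * |x - x'| := by positivity
    nlinarith
  · intro x y hx hy
    constructor
    · rintro ⟨s', hs'⟩
      have hd : sqDist (c s0) (c s') < ρ ^ 2 := by
        rw [hs', dc2_sqDist_Fr' ht]
        have e1 : x ^ 2 ≤ r0 ^ 2 := by rw [← sq_abs x]; exact pow_le_pow_left₀ (abs_nonneg _) hx 2
        have e2 : y ^ 2 ≤ r0 ^ 2 := by rw [← sq_abs y]; exact pow_le_pow_left₀ (abs_nonneg _) hy 2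
        have e3 : r0 ^ 2 ≤ (ρ / 2) ^ 2 := pow_le_pow_left₀ hr0.le hr2 2
        nlinarith
      obtain ⟨k, hk⟩ := hK4 s0 s' hd
      have hk' : |s' - k * l - s0| ≤ η := by
        rw [show s' - k * l - s0 = s' - s0 - k * l by ring]; exact hk.le
      have h1 := g1 (s' - k * l) hk'
      simp only [dc2_per_int h.per, hs', dc2X_Fr ht, dc2Y_Fr ht] at h1
      exact h1
    · rintro rfl
      obtain ⟨s, -, -, e1, e2⟩ := g2 x (hx.trans hr1)
      refine ⟨s, ?_⟩
      rw [← e2, ← e1]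
      exact (dc2Fr_XY ht (c s)).symm

end graph

end Claimed.Agent.R291
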