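import Claimed.Agent.R291.Geo.Hex
import Claimed.Agent.R291.Dict.C2a

/-!
# Row 291 (S0539), unit FRZ, part C2: the local structure of a `C²` Jordan domain      (owner helper25; prefix `dc2_`)

The only place where `ContDiff ℝ 2 c`, `deriv c ≠ 0`, `InjOn c` of the frozen `IsC2JordanDomain` are used.
TEX: 06-boundary.tex l.45-50 ("There is a radius, uniform in p, on which the limiting boundary is a graph with any prescribed
small slope tolerance", boxes `Q_a(p)` in tangent and inward normal coordinates), 05-pins.tex l.40-43, 07-limit.tex l.202.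

* `dc2Fr p t x y = p + x t + y J t`  the frame (tangent `t`, normal `J t = (-t₂, t₁)`), coordinates `dc2X`, `dc2Y`; the curve analysis
  K1-K5 and the uniform local graph theorem `dc2_graph` are in `Dict/C2a.lean` (helper119)
* `Dc2Graph S r C p t g`  in the box `|x|,|y| ≤ r` of the frame `(p,t)` the set `S` is the graph of `g`, `|g x| ≤ C x²`, slope `≤ 2 C a` on `|x| ≤ a`
* `dc2_path`    membership in an open set is constant along a path avoiding the frontier
* `Dc2Graph.up/down/up_or_down/two_sided/not_interior`   the two sides of a box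
* `dc2_not_two_sided`, `dc2_sides`   `D` open bounded with `frontier D = range c`: `D` is exactly one side of the graph in every box
  (no Jordan curve theorem: the set of two-sided parameters is clopen; if everything is two-sided, `closure D` is clopen in the plane)
* **EXIT** `dc2_boxes : IsC2JordanDomain D → ∃ r0 > 0, ∃ C > 0, C r0 ≤ 1/4 ∧ ∀ p ∈ frontier D, ∃ t g, Dc2Box D r0 C p t g`
  (`Dc2Box` = `Dc2Graph (frontier D)` + `dc2Fr p t x y ∈ D ↔ g x < y` in the box), `Dc2Box.mono` (smaller boxes), `Dc2Box.not_closure`.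
-/

set_option autoImplicit false

open Set Filter Topology
open Claims.C0467

namespace Claimed.Agent.R291

/-! ### frames -/

section frame

variable {p t : ℝ × ℝ}

theorem dc2_fr_XY (ht : t.1 ^ 2 + t.2 ^ 2 = 1) (z : ℝ × ℝ) : dc2Fr p t (dc2X p t z) (dc2Y p t z) = z := by
  unfold dc2Fr dc2X dc2Y
  ext
  · show p.1 + ((z.1 - p.1) * t.1 + (z.2 - p.2) * t.2) * t.1 - (-(z.1 - p.1) * t.2 + (z.2 - p.2) * t.1) * t.2 = z.1
    linear_combination (z.1 - p.1) * ht
  · show p.2 + ((z.1 - p.1) * t.1 + (z.2 - p.2) * t.2) * t.2 + (-(z.1 - p.1) * t.2 + (z.2 - p.2) * t.1) * t.1 = z.2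
    linear_combination (z.2 - p.2) * ht

theorem dc2_X_fr (ht : t.1 ^ 2 + t.2 ^ 2 = 1) (x y : ℝ) : dc2X p t (dc2Fr p t x y) = x := by
  unfold dc2Fr dc2X
  show (p.1 + x * t.1 - y * t.2 - p.1) * t.1 + (p.2 + x * t.2 + y * t.1 - p.2) * t.2 = x
  linear_combination x * ht

theorem dc2_Y_fr (ht : t.1 ^ 2 + t.2 ^ 2 = 1) (x y : ℝ) : dc2Y p t (dc2Fr p t x y) = y := by
  unfold dc2Fr dc2Y
  show -(p.1 + x * t.1 - y * t.2 - p.1) * t.2 + (p.2 + x * t.2 + y * t.1 - p.2) * t.1 = y
  linear_combination y * ht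

theorem dc2_fr_inj (ht : t.1 ^ 2 + t.2 ^ 2 = 1) {x y x' y' : ℝ} (h : dc2Fr p t x y = dc2Fr p t x' y') :
    x = x' ∧ y = y' := by
  constructor
  · rw [← dc2_X_fr (p := p) ht x y, h, dc2_X_fr ht]
  · rw [← dc2_Y_fr (p := p) ht x y, h, dc2_Y_fr ht]

theorem dc2_sqDist_fr (ht : t.1 ^ 2 + t.2 ^ 2 = 1) (x y x' y' : ℝ) :
    sqDist (dc2Fr p t x y) (dc2Fr p t x' y') = (x - x') ^ 2 + (y - y') ^ 2 := by
  unfold dc2Fr sqDist
  show (p.1 + x * t.1 - y * t.2 - (p.1 + x' * t.1 - y' * t.2)) ^ 2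
    + (p.2 + x * t.2 + y * t.1 - (p.2 + x' * t.2 + y' * t.1)) ^ 2 = _
  linear_combination ((x - x') ^ 2 + (y - y') ^ 2) * ht

theorem dc2_fr_zero (p t : ℝ × ℝ) : dc2Fr p t 0 0 = p := by
  unfold dc2Fr; simp

theorem dc2_sqDist_fr_origin (ht : t.1 ^ 2 + t.2 ^ 2 = 1) (x y : ℝ) : sqDist (dc2Fr p t x y) p = x ^ 2 + y ^ 2 := by
  have := dc2_sqDist_fr (p := p) ht x y 0 0
  rw [dc2_fr_zero] at this
  simpa using this

theorem dc2_fr_neg (p t : ℝ × ℝ) (x y : ℝ) : dc2Fr p (-t) x y = dc2Fr p t (-x) (-y) := by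
  unfold dc2Fr
  ext
  · show p.1 + x * (-t.1) - y * (-t.2) = p.1 + -x * t.1 - -y * t.2
    ring
  · show p.2 + x * (-t.2) + y * (-t.1) = p.2 + -x * t.2 + -y * t.1
    ring

theorem dc2_fr_continuous (p t : ℝ × ℝ) : Continuous fun q : ℝ × ℝ => dc2Fr p t q.1 q.2 := by
  unfold dc2Fr; fun_prop

theorem dc2_X_continuous (p t : ℝ × ℝ) : Continuous (dc2X p t) := by unfold dc2X; fun_prop

theorem dc2_Y_continuous (p t : ℝ × ℝ) : Continuous (dc2Y p t) := by unfold dc2Y; fun_prop

/-- a linear form in a unit direction. -/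
theorem dc2_form_le (ht : t.1 ^ 2 + t.2 ^ 2 = 1) {a b e : ℝ} (ha : |a| ≤ e) (hb : |b| ≤ e) :
    |a * t.1 + b * t.2| ≤ 2 * e ∧ |-a * t.2 + b * t.1| ≤ 2 * e := by
  obtain ⟨h1, h2⟩ := dc2_abs_le_one ht
  have he : 0 ≤ e := (abs_nonneg a).trans ha
  have k : ∀ u v : ℝ, |u| ≤ e → |v| ≤ 1 → |u * v| ≤ e := by
    intro u v hu hv
    rw [abs_mul]
    calc |u| * |v| ≤ e * 1 := mul_le_mul hu hv (abs_nonneg _) he
      _ = e := mul_one e
  constructor
  · calc |a * t.1 + b * t.2| ≤ |a * t.1| + |b * t.2| := abs_add_le _ _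
      _ ≤ e + e := add_le_add (k _ _ ha h1) (k _ _ hb h2)
      _ = 2 * e := by ring
  · calc |-a * t.2 + b * t.1| ≤ |-a * t.2| + |b * t.1| := abs_add_le _ _
      _ ≤ e + e := add_le_add (k _ _ (by rwa [abs_neg]) h2) (k _ _ hb h1)
      _ = 2 * e := by ring

end frame

/-! ### graph boxes -/

/-- in the box `|x|, |y| ≤ r` of the frame `(p,t)` the set `S` is the graph of `g`. -/
structure Dc2Graph (S : Set (ℝ × ℝ)) (r C : ℝ) (p t : ℝ × ℝ) (g : ℝ → ℝ) : Prop where
  unit : t.1 ^ 2 + t.2 ^ 2 = 1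
  quad : ∀ x, |x| ≤ r → |g x| ≤ C * x ^ 2
  slope : ∀ a x x', a ≤ r → |x| ≤ a → |x'| ≤ a → |g x - g x'| ≤ 2 * C * a * |x - x'|
  fr : ∀ x y, |x| ≤ r → |y| ≤ r → (dc2Fr p t x y ∈ S ↔ y = g x)

/-! ### the two sides of a graph box -/

/-- along a path that avoids the frontier, membership in an open set does not change. -/
theorem dc2_path {D : Set (ℝ × ℝ)} (hD : IsOpen D) {φ : ℝ → ℝ × ℝ} {a b : ℝ} (hφ : ContinuousOn φ (uIcc a b))
    (hfr : ∀ θ ∈ uIcc a b, φ θ ∉ frontier D) : φ a ∈ D ↔ φ b ∈ D := by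
  have hT : IsPreconnected (φ '' uIcc a b) := isPreconnected_uIcc.image φ hφ
  have hsub : φ '' uIcc a b ⊆ D ∪ (closure D)ᶜ := by
    rintro _ ⟨θ, hθ, rfl⟩
    by_cases h : φ θ ∈ D
    · exact Or.inl h
    · right
      intro hcl
      rw [closure_eq_self_union_frontier] at hcl
      exact hcl.elim h (hfr θ hθ)
  have hdisj : Disjoint D (closure D)ᶜ := disjoint_compl_right_iff_subset.2 subset_closure
  have ha : φ a ∈ φ '' uIcc a b := mem_image_of_mem φ left_mem_uIcc
  have hb : φ b ∈ φ '' uIcc a b := mem_image_of_mem φ right_mem_uIcc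
  rcases hT.subset_or_subset hD isClosed_closure.isOpen_compl hdisj hsub with h | h
  · exact ⟨fun _ => h hb, fun _ => h ha⟩
  · exact ⟨fun h1 => absurd (subset_closure h1) (h ha), fun h1 => absurd (subset_closure h1) (h hb)⟩

section sides

variable {S D : Set (ℝ × ℝ)} {r C : ℝ} {p t : ℝ × ℝ} {g : ℝ → ℝ}

/-- the box seen from the other side. -/
theorem Dc2Graph.neg (G : Dc2Graph S r C p t g) : Dc2Graph S r C p (-t) (fun x => -g (-x)) where
  unit := by
    show (-t.1) ^ 2 + (-t.2) ^ 2 = 1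
    rw [neg_sq, neg_sq]; exact G.unit
  quad := fun x hx => by
    have := G.quad (-x) (by rwa [abs_neg])
    rw [neg_sq] at this
    rwa [abs_neg]
  slope := fun a x x' ha hx hx' => by
    have := G.slope a (-x) (-x') ha (by rwa [abs_neg]) (by rwa [abs_neg])
    have e1 : -g (-x) - -g (-x') = -(g (-x) - g (-x')) := by ring
    have e2 : -x - -x' = -(x - x') := by ring
    rw [e1, abs_neg]
    rwa [e2, abs_neg] at this
  fr := fun x y hx hy => by
    rw [dc2_fr_neg, G.fr (-x) (-y) (by rwa [abs_neg]) (by rwa [abs_neg])]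
    constructor
    · intro h; linarith
    · intro h; linarith

/-- the graph stays in the middle quarter of the box. -/
theorem Dc2Graph.g_le (G : Dc2Graph S r C p t g) (hr : 0 < r) (hCr : C * r ≤ 1 / 4) {x : ℝ} (hx : |x| ≤ r) :
    |g x| ≤ r / 4 := by
  have h1 := G.quad x hx
  have h2 : x ^ 2 ≤ r ^ 2 := sq_le_sq' (by linarith [(abs_le.1 hx).1]) (abs_le.1 hx).2
  by_cases hC : 0 ≤ C
  · have h3 : C * x ^ 2 ≤ C * r ^ 2 := mul_le_mul_of_nonneg_left h2 hC
    nlinarith
  · have h3 : C * x ^ 2 ≤ 0 := mul_nonpos_of_nonpos_of_nonneg (not_le.1 hC).le (sq_nonneg x)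
    linarith

theorem Dc2Graph.g_zero (G : Dc2Graph S r C p t g) (hr : 0 < r) : g 0 = 0 := by
  have := G.quad 0 (by rw [abs_zero]; exact hr.le)
  simpa using this

theorem Dc2Graph.mem (G : Dc2Graph S r C p t g) (hr : 0 < r) : p ∈ S := by
  have := (G.fr 0 0 (by rw [abs_zero]; exact hr.le) (by rw [abs_zero]; exact hr.le)).2 (G.g_zero hr).symm
  rwa [dc2_fr_zero] at this

/-- all the points above the graph are on the same side as the top of the box. -/
theorem Dc2Graph.up (G : Dc2Graph (frontier D) r C p t g) (hD : IsOpen D) (hr : 0 < r) (hCr : C * r ≤ 1 / 4) {x y : ℝ}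
    (hx : |x| ≤ r) (hy : y ≤ r) (hgy : g x < y) : dc2Fr p t x y ∈ D ↔ dc2Fr p t 0 r ∈ D := by
  have hgx := abs_le.1 (G.g_le hr hCr hx)
  have h1 : dc2Fr p t x y ∈ D ↔ dc2Fr p t x r ∈ D := by
    apply dc2_path hD (φ := fun θ => dc2Fr p t x θ)
    · exact ((dc2_fr_continuous p t).comp (Continuous.prodMk continuous_const continuous_id)).continuousOn
    · intro θ hθ
      rw [uIcc_of_le hy] at hθ
      rw [G.fr x θ hx (abs_le.2 ⟨by linarith [hθ.1], hθ.2⟩)]
      intro h
      linarith [hθ.1]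
  have h2 : dc2Fr p t x r ∈ D ↔ dc2Fr p t 0 r ∈ D := by
    apply dc2_path hD (φ := fun θ => dc2Fr p t θ r)
    · exact ((dc2_fr_continuous p t).comp (Continuous.prodMk continuous_id continuous_const)).continuousOn
    · intro θ hθ
      have hθ' : |θ| ≤ r := by
        have := abs_sub_right_of_mem_uIcc hθ
        rw [zero_sub, zero_sub, abs_neg, abs_neg] at this
        exact this.trans hx
      rw [G.fr θ r hθ' (by rw [abs_of_pos hr])]
      intro h
      have := abs_le.1 (G.g_le hr hCr hθ')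
      linarith [this.2]
  exact h1.trans h2

/-- all the points below the graph are on the same side as the bottom of the box. -/
theorem Dc2Graph.down (G : Dc2Graph (frontier D) r C p t g) (hD : IsOpen D) (hr : 0 < r) (hCr : C * r ≤ 1 / 4) {x y : ℝ}
    (hx : |x| ≤ r) (hy : -r ≤ y) (hgy : y < g x) : dc2Fr p t x y ∈ D ↔ dc2Fr p t 0 (-r) ∈ D := by
  have := G.neg.up hD hr hCr (x := -x) (y := -y) (by rwa [abs_neg]) (by linarith) (by simp only [neg_neg]; linarith)
  rwa [dc2_fr_neg, dc2_fr_neg, neg_neg, neg_neg, neg_zero] at this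

/-- the box is a neighbourhood of its centre (sup metric of the plane). -/
theorem dc2_box_nhds (ht : t.1 ^ 2 + t.2 ^ 2 = 1) {z : ℝ × ℝ} (hz : dist z p ≤ r / 2) :
    |dc2X p t z| ≤ r ∧ |dc2Y p t z| ≤ r := by
  rw [Prod.dist_eq, max_le_iff, Real.dist_eq, Real.dist_eq] at hz
  obtain ⟨h1, h2⟩ := hz
  have := dc2_form_le ht h1 h2
  unfold dc2X dc2Y
  constructor
  · linarith [this.1]
  · linarith [this.2]

/-- at least one side of the box lies in `D`. -/
theorem Dc2Graph.up_or_down (G : Dc2Graph (frontier D) r C p t g) (hD : IsOpen D) (hr : 0 < r) (hCr : C * r ≤ 1 / 4) :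
    dc2Fr p t 0 r ∈ D ∨ dc2Fr p t 0 (-r) ∈ D := by
  have hp : p ∈ closure D := frontier_subset_closure (G.mem hr)
  obtain ⟨z, hzD, hz⟩ := Metric.mem_closure_iff.1 hp (r / 2) (by positivity)
  rw [dist_comm] at hz
  obtain ⟨hX, hY⟩ := dc2_box_nhds (p := p) G.unit hz.le
  have hzz := dc2_fr_XY (p := p) G.unit z
  have hnf : z ∉ frontier D := fun h => by
    have : z ∈ D ∩ frontier D := ⟨hzD, h⟩
    rw [hD.inter_frontier_eq] at this
    exact this
  have hne : dc2Y p t z ≠ g (dc2X p t z) := by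
    intro h
    apply hnf
    rw [← hzz]
    exact (G.fr _ _ hX hY).2 h
  rcases lt_or_gt_of_ne hne with h | h
  · right
    rw [← G.down hD hr hCr hX (abs_le.1 hY).1 h, hzz]
    exact hzD
  · left
    rw [← G.up hD hr hCr hX (abs_le.1 hY).2 h, hzz]
    exact hzD

/-- if both sides lie in `D`, the centre is interior to `closure D`. -/
theorem Dc2Graph.two_sided (G : Dc2Graph (frontier D) r C p t g) (hD : IsOpen D) (hr : 0 < r) (hCr : C * r ≤ 1 / 4)
    (h1 : dc2Fr p t 0 r ∈ D) (h2 : dc2Fr p t 0 (-r) ∈ D) : p ∈ interior (closure D) := by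
  rw [mem_interior_iff_mem_nhds, Metric.mem_nhds_iff]
  refine ⟨r / 2, by positivity, fun z hz => ?_⟩
  obtain ⟨hX, hY⟩ := dc2_box_nhds (p := p) G.unit (Metric.mem_ball.1 hz).le
  have hzz := dc2_fr_XY (p := p) G.unit z
  rcases lt_trichotomy (dc2Y p t z) (g (dc2X p t z)) with h | h | h
  · apply subset_closure
    rw [← hzz, G.down hD hr hCr hX (abs_le.1 hY).1 h]
    exact h2
  · apply frontier_subset_closure
    rw [← hzz]
    exact (G.fr _ _ hX hY).2 h
  · apply subset_closure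
    rw [← hzz, G.up hD hr hCr hX (abs_le.1 hY).2 h]
    exact h1

/-- if the lower side misses `D`, no point of the graph is interior to `closure D`. -/
theorem Dc2Graph.not_interior (G : Dc2Graph (frontier D) r C p t g) (hD : IsOpen D) (hr : 0 < r) (hCr : C * r ≤ 1 / 4)
    (h2 : dc2Fr p t 0 (-r) ∉ D) {x : ℝ} (hx : |x| ≤ r) : dc2Fr p t x (g x) ∉ interior (closure D) := by
  intro hin
  have hcont : Continuous fun y : ℝ => dc2Fr p t x y :=
    (dc2_fr_continuous p t).comp (Continuous.prodMk continuous_const continuous_id)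
  have hopen : IsOpen ((fun y : ℝ => dc2Fr p t x y) ⁻¹' interior (closure D)) := isOpen_interior.preimage hcont
  obtain ⟨ε, hε, hball⟩ := Metric.isOpen_iff.1 hopen (g x) hin
  have hgx := abs_le.1 (G.g_le hr hCr hx)
  set y := g x - min (ε / 2) (r / 2) with hy
  have hmin0 : 0 < min (ε / 2) (r / 2) := lt_min (by positivity) (by positivity)
  have hmin1 : min (ε / 2) (r / 2) ≤ ε / 2 := min_le_left _ _
  have hmin2 : min (ε / 2) (r / 2) ≤ r / 2 := min_le_right _ _
  have hyb : y ∈ Metric.ball (g x) ε := by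
    rw [Metric.mem_ball, Real.dist_eq, hy, sub_sub_cancel_left, abs_neg, abs_of_pos hmin0]
    linarith
  have h3 : dc2Fr p t x y ∈ closure D := interior_subset (hball hyb)
  have hylt : y < g x := by rw [hy]; linarith
  have hyr : -r ≤ y := by rw [hy]; linarith [hgx.1]
  rw [closure_eq_self_union_frontier] at h3
  rcases h3 with h3 | h3
  · exact h2 ((G.down hD hr hCr hx hyr hylt).1 h3)
  · have := (G.fr x y hx (abs_le.2 ⟨hyr, by linarith [hgx.2]⟩)).1 h3
    linarith

/-- near the centre of a box that is not two-sided, no frontier point is interior to `closure D`. -/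
theorem Dc2Graph.not_interior_nhds (G : Dc2Graph (frontier D) r C p t g) (hD : IsOpen D) (hr : 0 < r)
    (hCr : C * r ≤ 1 / 4) (hp : p ∉ interior (closure D)) {z : ℝ × ℝ} (hz : dist z p ≤ r / 2) (hzf : z ∈ frontier D) :
    z ∉ interior (closure D) := by
  by_cases h2 : dc2Fr p t 0 (-r) ∈ D
  · have h1 : dc2Fr p t 0 r ∉ D := fun h1 => hp (G.two_sided hD hr hCr h1 h2)
    have h1' : dc2Fr p (-t) 0 (-r) ∉ D := by rwa [dc2_fr_neg, neg_neg, neg_zero]
    obtain ⟨hX, hY⟩ := dc2_box_nhds (p := p) G.neg.unit hz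
    have hzz := dc2_fr_XY (p := p) G.neg.unit z
    have h3 := (G.neg.fr _ _ hX hY).1 (by rw [hzz]; exact hzf)
    have h4 := G.neg.not_interior hD hr hCr h1' hX
    rw [← h3, hzz] at h4
    exact h4
  · obtain ⟨hX, hY⟩ := dc2_box_nhds (p := p) G.unit hz
    have hzz := dc2_fr_XY (p := p) G.unit z
    have h3 := (G.fr _ _ hX hY).1 (by rw [hzz]; exact hzf)
    have h4 := G.not_interior hD hr hCr h2 hX
    rw [← h3, hzz] at h4
    exact h4

end sides

/-- **no frontier point of `D` is interior to `closure D`** (`D` open and bounded, frontier = a curve with graph boxes).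
The set of two-sided parameters is clopen in `ℝ`; if it is everything, `closure D` is clopen in the plane. -/
theorem dc2_not_two_sided {D : Set (ℝ × ℝ)} (hD : IsOpen D) (hDb : Bornology.IsBounded D) {c : ℝ → ℝ × ℝ}
    (hc : Continuous c) (hrange : range c = frontier D) {r C : ℝ} (hr : 0 < r) (hCr : C * r ≤ 1 / 4)
    (hG : ∀ s0, ∃ t g, Dc2Graph (frontier D) r C (c s0) t g) (s : ℝ) : c s ∉ interior (closure D) := by
  set A : Set ℝ := c ⁻¹' interior (closure D) with hA
  have hAo : IsOpen A := isOpen_interior.preimage hc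
  have hAc : IsOpen Aᶜ := by
    rw [isOpen_iff_mem_nhds]
    intro s0 hs0
    obtain ⟨t, g, G⟩ := hG s0
    have h1 : ∀ᶠ s in 𝓝 s0, dist (c s) (c s0) < r / 2 :=
      (hc.tendsto s0).eventually (Metric.ball_mem_nhds _ (by positivity))
    filter_upwards [h1] with s' hs'
    exact G.not_interior_nhds hD hr hCr hs0 hs'.le (hrange ▸ mem_range_self s')
  have hclopen : IsClopen A := ⟨⟨hAc⟩, hAo⟩
  rcases isClopen_iff.1 hclopen with h | h
  · intro hs
    have : s ∈ A := hs
    rw [h] at this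
    exact this
  · exfalso
    -- `closure D` is open
    have hsub : closure D ⊆ interior (closure D) := by
      have e : closure D = D ∪ frontier D := closure_eq_self_union_frontier D
      refine e.subset.trans (union_subset (interior_maximal subset_closure hD) ?_)
      rw [← hrange]
      rintro _ ⟨s', rfl⟩
      have : s' ∈ A := by rw [h]; exact mem_univ _
      exact this
    have hopen : IsOpen (closure D) := by
      have : interior (closure D) = closure D := subset_antisymm interior_subset hsub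
      rw [← this]; exact isOpen_interior
    have hcl : IsClopen (closure D) := ⟨isClosed_closure, hopen⟩
    rcases isClopen_iff.1 hcl with h' | h'
    · have : c 0 ∈ closure D := frontier_subset_closure (hrange ▸ mem_range_self 0)
      rw [h'] at this
      exact this
    · have hb := hDb.closure
      rw [h'] at hb
      obtain ⟨R, hR⟩ := hb.subset_closedBall (0 : ℝ × ℝ)
      have h1 : ((|R| + 1, 0) : ℝ × ℝ) ∈ Metric.closedBall (0 : ℝ × ℝ) R := hR (mem_univ _)
      rw [Metric.mem_closedBall, Prod.dist_eq] at h1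
      have h2 := (le_max_left _ _).trans h1
      simp only [Prod.fst_zero, Real.dist_eq, sub_zero] at h2
      have h3 : |(|R| + 1)| = |R| + 1 := abs_of_nonneg (by positivity)
      rw [h3] at h2
      linarith [le_abs_self R]

/-- **`D` is exactly one side of the graph in every box**; the frame is chosen with inward normal `J t`. -/
theorem dc2_sides {D : Set (ℝ × ℝ)} (hD : IsOpen D) (hDb : Bornology.IsBounded D) {c : ℝ → ℝ × ℝ}
    (hc : Continuous c) (hrange : range c = frontier D) {r C : ℝ} (hr : 0 < r) (hCr : C * r ≤ 1 / 4)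
    (hG : ∀ s0, ∃ t g, Dc2Graph (frontier D) r C (c s0) t g) {p : ℝ × ℝ} (hp : p ∈ frontier D) :
    ∃ t g, Dc2Graph (frontier D) r C p t g ∧
      ∀ x y, |x| ≤ r → |y| ≤ r → (dc2Fr p t x y ∈ D ↔ g x < y) := by
  rw [← hrange] at hp
  obtain ⟨s0, rfl⟩ := hp
  obtain ⟨t, g, G⟩ := hG s0
  have hni := dc2_not_two_sided hD hDb hc hrange hr hCr hG s0
  -- a box whose upper side is in `D` and whose lower side is not
  have key : ∀ (t : ℝ × ℝ) (g : ℝ → ℝ), Dc2Graph (frontier D) r C (c s0) t g → dc2Fr (c s0) t 0 r ∈ D →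
      dc2Fr (c s0) t 0 (-r) ∉ D → ∀ x y, |x| ≤ r → |y| ≤ r → (dc2Fr (c s0) t x y ∈ D ↔ g x < y) := by
    intro t g G h1 h2 x y hx hy
    rcases lt_trichotomy y (g x) with h | h | h
    · rw [G.down hD hr hCr hx (abs_le.1 hy).1 h]
      exact ⟨fun h' => absurd h' h2, fun h' => absurd h' (not_lt.2 h.le)⟩
    · constructor
      · intro h'
        exfalso
        have : dc2Fr (c s0) t x y ∈ D ∩ frontier D := ⟨h', (G.fr x y hx hy).2 h⟩
        rw [hD.inter_frontier_eq] at this
        exact this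
      · intro h'; exact absurd h' (not_lt.2 h.le)
    · rw [G.up hD hr hCr hx (abs_le.1 hy).2 h]
      exact ⟨fun _ => h, fun _ => h1⟩
  by_cases h1 : dc2Fr (c s0) t 0 r ∈ D
  · have h2 : dc2Fr (c s0) t 0 (-r) ∉ D := fun h2 => hni (G.two_sided hD hr hCr h1 h2)
    exact ⟨t, g, G, key t g G h1 h2⟩
  · have h2 : dc2Fr (c s0) t 0 (-r) ∈ D := (G.up_or_down hD hr hCr).resolve_left h1
    refine ⟨-t, _, G.neg, key _ _ G.neg ?_ ?_⟩
    · rwa [dc2_fr_neg, neg_zero]
    · rwa [dc2_fr_neg, neg_zero, neg_neg]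

/-! ### the exit -/

/-- graph box with sides: in the box `|x|,|y| ≤ r` of the frame `(p,t)`, `frontier D` is the graph of `g` and `D` is the part above
it (`J t` is the inward normal). -/
structure Dc2Box (D : Set (ℝ × ℝ)) (r C : ℝ) (p t : ℝ × ℝ) (g : ℝ → ℝ) : Prop where
  graph : Dc2Graph (frontier D) r C p t g
  side : ∀ x y, |x| ≤ r → |y| ≤ r → (dc2Fr p t x y ∈ D ↔ g x < y)

/-- **EXIT of part C2**: uniform graph boxes, in tangent and inward normal coordinates, for the frozen `C²` Jordan domains. -/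
theorem dc2_boxes {D : Set (ℝ × ℝ)} (hD : IsC2JordanDomain D) :
    ∃ r0 : ℝ, 0 < r0 ∧ ∃ C : ℝ, 0 < C ∧ C * r0 ≤ 1 / 4 ∧ ∀ p ∈ frontier D, ∃ t g, Dc2Box D r0 C p t g := by
  obtain ⟨hDo, hDb, c, l, hc, hrange⟩ := dc2_of_domain hD
  obtain ⟨r0, hr0, C, hC, hCr, hG⟩ := dc2_graph hc
  refine ⟨r0, hr0, C, hC, hCr, fun p hp => ?_⟩
  have hG' : ∀ s0, ∃ t g, Dc2Graph (frontier D) r0 C (c s0) t g := by
    intro s0
    obtain ⟨t, ht, -, g, h1, h2, h3⟩ := hG s0
    exact ⟨t, g, ht, h1, h2, by rw [← hrange]; exact h3⟩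
  obtain ⟨t, g, G, hs⟩ := dc2_sides hDo hDb hc.continuous hrange hr0 hCr hG' hp
  exact ⟨t, g, G, hs⟩

theorem Dc2Graph.mono {S : Set (ℝ × ℝ)} {r r' C : ℝ} {p t : ℝ × ℝ} {g : ℝ → ℝ} (G : Dc2Graph S r C p t g) (h : r' ≤ r) :
    Dc2Graph S r' C p t g where
  unit := G.unit
  quad := fun x hx => G.quad x (hx.trans h)
  slope := fun a x x' ha hx hx' => G.slope a x x' (ha.trans h) hx hx'
  fr := fun x y hx hy => G.fr x y (hx.trans h) (hy.trans h)

/-- smaller boxes (so the slope `2 C r` is as small as one wishes). -/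
theorem Dc2Box.mono {D : Set (ℝ × ℝ)} {r r' C : ℝ} {p t : ℝ × ℝ} {g : ℝ → ℝ} (B : Dc2Box D r C p t g) (h : r' ≤ r) :
    Dc2Box D r' C p t g :=
  ⟨B.graph.mono h, fun x y hx hy => B.side x y (hx.trans h) (hy.trans h)⟩

/-- below the graph one is outside `closure D`. -/
theorem Dc2Box.not_closure {D : Set (ℝ × ℝ)} {r C : ℝ} {p t : ℝ × ℝ} {g : ℝ → ℝ} (B : Dc2Box D r C p t g) {x y : ℝ}
    (hx : |x| ≤ r) (hy : |y| ≤ r) : dc2Fr p t x y ∉ closure D ↔ y < g x := by
  rw [closure_eq_self_union_frontier, mem_union, B.side x y hx hy, B.graph.fr x y hx hy, not_or]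
  constructor
  · rintro ⟨h1, h2⟩
    exact lt_of_le_of_ne (not_lt.1 h1) h2
  · intro h
    exact ⟨not_lt.2 h.le, h.ne⟩

end Claimed.Agent.R291
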