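/-
R291 (S0539), unit FRZ, sub-unit C2 : COROLLARIES of the EXIT `dc2_boxes`.     owner: helper119
(head of FRZ: helper25.)

On top of `Dict/C2a.lean` (helper119: curve analysis K1-K5, frame, `dc2_graph`) and `Dict/C2.lean`
(helper25: `Dc2Graph`, sides, `Dc2Box`, EXIT `dc2_boxes`).

  * `dc2_boxes_flat` : the EXIT `dc2_boxes` with all fields spelled out.
  * `dc2_frontier_not_interior`, `dc2_interior_closure`, `dc2_frontier_compact`, `dc2_nonempty`.
  * corollaries of a box: membership in coordinates, closure, complement, shrinking, slope;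
    interior and exterior discs, Euclidean distance of `p + a J t` to the frontier;
    continuity of the graph map, pieces of the frontier over an interval are preconnected, and so are
    their preimages under any injective continuous parametrisation by a compact space (the circle).

The plane `ℝ × ℝ` carries the SUP metric: all Euclidean statements are in the frozen `sqDist`.
-/
import Claimed.Agent.R291.Dict.C2

set_option autoImplicit false

namespace Claimed.Agent.R291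

open Claims.C0467 Set Filter Topology

/-! ### 1. Global corollaries -/

/-- **EXIT, flat form** (the statement of the G1 note of FRZ). -/
theorem dc2_boxes_flat {D : Set (ℝ × ℝ)} (hD : IsC2JordanDomain D) :
    ∃ r0 : ℝ, 0 < r0 ∧ ∃ C : ℝ, 0 < C ∧ C * r0 ≤ 1 / 4 ∧ ∀ p ∈ frontier D,
      ∃ t : ℝ × ℝ, t.1 ^ 2 + t.2 ^ 2 = 1 ∧ ∃ g : ℝ → ℝ,
        (∀ x, |x| ≤ r0 → |g x| ≤ C * x ^ 2) ∧
        (∀ r x x', r ≤ r0 → |x| ≤ r → |x'| ≤ r → |g x - g x'| ≤ 2 * C * r * |x - x'|) ∧
        ∀ x y, |x| ≤ r0 → |y| ≤ r0 →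
          ((dc2Fr p t x y ∈ D ↔ g x < y) ∧ (dc2Fr p t x y ∈ frontier D ↔ y = g x)) := by
  obtain ⟨r0, hr0, C, hC, hCr, H⟩ := dc2_boxes hD
  refine ⟨r0, hr0, C, hC, hCr, fun p hp => ?_⟩
  obtain ⟨t, g, hb⟩ := H p hp
  exact ⟨t, hb.graph.unit, g, hb.graph.quad, hb.graph.slope, fun x y hx hy =>
    ⟨hb.side x y hx hy, hb.graph.fr x y hx hy⟩⟩

/-- no frontier point of a `C²` Jordan domain is interior to the closure. -/
theorem dc2_frontier_not_interior {D : Set (ℝ × ℝ)} (hD : IsC2JordanDomain D) {p : ℝ × ℝ}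
    (hp : p ∈ frontier D) : p ∉ interior (closure D) := by
  obtain ⟨hDo, hDb, c, l, hc, hr⟩ := dc2_of_domain hD
  obtain ⟨r0, hr0, C, hC, hCr, H⟩ := dc2_graph hc
  obtain ⟨s, rfl⟩ : p ∈ Set.range c := hr ▸ hp
  refine dc2_not_two_sided hDo hDb hc.continuous hr hr0 hCr (fun s0 => ?_) s
  obtain ⟨t, ht, -, g, h1, h2, h3⟩ := H s0
  exact ⟨t, g, ht, h1, h2, by rw [← hr]; exact h3⟩

/-- a `C²` Jordan domain is regular open: `interior (closure D) = D`. -/
theorem dc2_interior_closure {D : Set (ℝ × ℝ)} (hD : IsC2JordanDomain D) :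
    interior (closure D) = D := by
  refine subset_antisymm (fun z hz => ?_) (interior_maximal subset_closure hD.1)
  by_contra hzD
  have hzf : z ∈ frontier D := by
    rw [hD.1.frontier_eq]; exact ⟨interior_subset hz, hzD⟩
  exact dc2_frontier_not_interior hD hzf hz

/-- the frontier of a `C²` Jordan domain is compact and nonempty. -/
theorem dc2_frontier_compact {D : Set (ℝ × ℝ)} (hD : IsC2JordanDomain D) :
    IsCompact (frontier D) ∧ (frontier D).Nonempty := by
  obtain ⟨hDo, hDb, c, l, hc, hr⟩ := dc2_of_domain hD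
  refine ⟨?_, ⟨c 0, hr ▸ mem_range_self 0⟩⟩
  exact Metric.isCompact_of_isClosed_isBounded isClosed_frontier
    (hDb.closure.subset frontier_subset_closure)

/-- a `C²` Jordan domain is nonempty. -/
theorem dc2_nonempty {D : Set (ℝ × ℝ)} (hD : IsC2JordanDomain D) : D.Nonempty := by
  obtain ⟨p, hp⟩ := (dc2_frontier_compact hD).2
  have : (closure D).Nonempty := ⟨p, frontier_subset_closure hp⟩
  exact closure_nonempty_iff.1 this

/-! ### 2. Corollaries of one box -/

section box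

variable {D : Set (ℝ × ℝ)} {r C : ℝ} {p t : ℝ × ℝ} {g : ℝ → ℝ}

theorem Dc2Box.unit (hb : Dc2Box D r C p t g) : t.1 ^ 2 + t.2 ^ 2 = 1 := hb.graph.unit

/-- membership in `D` in coordinates. -/
theorem Dc2Box.mem_iff (hb : Dc2Box D r C p t g) {z : ℝ × ℝ} (hx : |dc2X p t z| ≤ r)
    (hy : |dc2Y p t z| ≤ r) : z ∈ D ↔ g (dc2X p t z) < dc2Y p t z := by
  have := hb.side _ _ hx hy
  rwa [dc2_fr_XY hb.unit] at this

/-- membership in the frontier in coordinates. -/
theorem Dc2Box.mem_frontier_iff (hb : Dc2Box D r C p t g) {z : ℝ × ℝ} (hx : |dc2X p t z| ≤ r)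
    (hy : |dc2Y p t z| ≤ r) : z ∈ frontier D ↔ dc2Y p t z = g (dc2X p t z) := by
  have := hb.graph.fr _ _ hx hy
  rwa [dc2_fr_XY hb.unit] at this

/-- the closure in the box is the closed epigraph. -/
theorem Dc2Box.closure_iff (hb : Dc2Box D r C p t g) {x y : ℝ} (hx : |x| ≤ r) (hy : |y| ≤ r) :
    dc2Fr p t x y ∈ closure D ↔ g x ≤ y := by
  rw [closure_eq_self_union_frontier, mem_union, hb.side x y hx hy, hb.graph.fr x y hx hy]
  constructor
  · rintro (h | h)
    · exact h.le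
    · exact h.ge
  · intro h
    rcases h.lt_or_eq with h | h
    · exact Or.inl h
    · exact Or.inr h.symm

theorem Dc2Box.mem_closure_iff (hb : Dc2Box D r C p t g) {z : ℝ × ℝ} (hx : |dc2X p t z| ≤ r)
    (hy : |dc2Y p t z| ≤ r) : z ∈ closure D ↔ g (dc2X p t z) ≤ dc2Y p t z := by
  have := hb.closure_iff hx hy
  rwa [dc2_fr_XY hb.unit] at this

theorem Dc2Box.center_mem (hb : Dc2Box D r C p t g) (hr : 0 < r) : p ∈ frontier D := hb.graph.mem hr

/-- the inward normal segment is in `D`. -/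
theorem Dc2Box.normal_mem (hb : Dc2Box D r C p t g) (hr : 0 < r) {y : ℝ} (hy0 : 0 < y)
    (hy : y ≤ r) : dc2Fr p t 0 y ∈ D := by
  rw [hb.side 0 y (by simpa using hr.le) (by rw [abs_of_pos hy0]; exact hy), hb.graph.g_zero hr]
  exact hy0

/-- the outward normal segment misses `closure D`. -/
theorem Dc2Box.normal_not_mem (hb : Dc2Box D r C p t g) (hr : 0 < r) {y : ℝ} (hy0 : 0 < y)
    (hy : y ≤ r) : dc2Fr p t 0 (-y) ∉ closure D := by
  rw [hb.closure_iff (by simpa using hr.le) (by rw [abs_neg, abs_of_pos hy0]; exact hy),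
    hb.graph.g_zero hr]
  linarith

/-- coordinates of a point of a Euclidean disc centred on the normal. -/
theorem dc2_disc_coord (ht : t.1 ^ 2 + t.2 ^ 2 = 1) {z : ℝ × ℝ} {b : ℝ} :
    sqDist z (dc2Fr p t 0 b) = dc2X p t z ^ 2 + (dc2Y p t z - b) ^ 2 := by
  conv_lhs => rw [← dc2_fr_XY (p := p) ht z]
  rw [dc2_sqDist_fr ht, sub_zero]

/-- **interior disc**: the open Euclidean disc of radius `a` centred at `p + a J t` is in `D`. -/
theorem Dc2Box.disc_in (hb : Dc2Box D r C p t g) {a : ℝ} (ha : 0 < a)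
    (har : 2 * a ≤ r) (haC : 2 * C * a ≤ 1) {z : ℝ × ℝ}
    (hz : sqDist z (dc2Fr p t 0 a) < a ^ 2) : z ∈ D := by
  rw [dc2_disc_coord hb.unit] at hz
  set x := dc2X p t z
  set y := dc2Y p t z
  have hx2 : x ^ 2 < a ^ 2 := by nlinarith [sq_nonneg (y - a)]
  have hy2 : (y - a) ^ 2 < a ^ 2 := by nlinarith [sq_nonneg x]
  have hxa : |x| < a := abs_lt_of_sq_lt_sq hx2 ha.le
  have hya : |y - a| < a := abs_lt_of_sq_lt_sq hy2 ha.le
  obtain ⟨y1, y2⟩ := abs_lt.1 hya
  have hx : |x| ≤ r := by linarith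
  have hy : |y| ≤ r := abs_le.2 ⟨by linarith, by linarith⟩
  rw [hb.mem_iff hx hy]
  have h1 : g x ≤ C * x ^ 2 := (le_abs_self _).trans (hb.graph.quad x hx)
  have h2 : x ^ 2 < 2 * a * y := by nlinarith [sq_nonneg y]
  have h3 : 2 * a * (C * x ^ 2) ≤ x ^ 2 := by
    have : (2 * C * a) * x ^ 2 ≤ 1 * x ^ 2 := mul_le_mul_of_nonneg_right haC (sq_nonneg x)
    nlinarith
  have h4 : 2 * a * (C * x ^ 2) < 2 * a * y := lt_of_le_of_lt h3 h2
  have h5 : C * x ^ 2 < y := lt_of_mul_lt_mul_left h4 (by positivity)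
  exact lt_of_le_of_lt h1 h5

/-- **exterior disc**: the open Euclidean disc of radius `a` centred at `p - a J t` misses
`closure D`. -/
theorem Dc2Box.disc_out (hb : Dc2Box D r C p t g) {a : ℝ} (ha : 0 < a)
    (har : 2 * a ≤ r) (haC : 2 * C * a ≤ 1) {z : ℝ × ℝ}
    (hz : sqDist z (dc2Fr p t 0 (-a)) < a ^ 2) : z ∉ closure D := by
  rw [dc2_disc_coord hb.unit] at hz
  set x := dc2X p t z
  set y := dc2Y p t z
  have hx2 : x ^ 2 < a ^ 2 := by nlinarith [sq_nonneg (y - -a)]
  have hy2 : (y - -a) ^ 2 < a ^ 2 := by nlinarith [sq_nonneg x]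
  have hxa : |x| < a := abs_lt_of_sq_lt_sq hx2 ha.le
  have hya : |y - -a| < a := abs_lt_of_sq_lt_sq hy2 ha.le
  obtain ⟨y1, y2⟩ := abs_lt.1 hya
  have hx : |x| ≤ r := by linarith
  have hy : |y| ≤ r := abs_le.2 ⟨by linarith, by linarith⟩
  rw [hb.mem_closure_iff hx hy, not_le]
  have h1 : -(C * x ^ 2) ≤ g x := (abs_le.1 (hb.graph.quad x hx)).1
  have h2 : x ^ 2 < 2 * a * (-y) := by nlinarith [sq_nonneg y]
  have h3 : 2 * a * (C * x ^ 2) ≤ x ^ 2 := by
    have : (2 * C * a) * x ^ 2 ≤ 1 * x ^ 2 := mul_le_mul_of_nonneg_right haC (sq_nonneg x)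
    nlinarith
  have h4 : 2 * a * (C * x ^ 2) < 2 * a * (-y) := lt_of_le_of_lt h3 h2
  have h5 : C * x ^ 2 < -y := lt_of_mul_lt_mul_left h4 (by positivity)
  linarith

/-- the Euclidean distance of `p + a J t` to the frontier is `a` (lower bound). -/
theorem Dc2Box.sqDist_frontier_ge (hD : IsOpen D) (hb : Dc2Box D r C p t g) {a : ℝ}
    (ha : 0 < a) (har : 2 * a ≤ r) (haC : 2 * C * a ≤ 1) {q : ℝ × ℝ} (hq : q ∈ frontier D) :
    a ^ 2 ≤ sqDist q (dc2Fr p t 0 a) := by
  by_contra hcon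
  have := hb.disc_in ha har haC (not_le.1 hcon)
  rw [hD.frontier_eq] at hq
  exact hq.2 this

/-- the Euclidean distance of `p + a J t` to the frontier is `a` (attained at `p`). -/
theorem Dc2Box.sqDist_center (hb : Dc2Box D r C p t g) (a : ℝ) :
    sqDist p (dc2Fr p t 0 a) = a ^ 2 := by
  have := dc2_sqDist_fr (p := p) hb.unit 0 0 0 a
  rw [dc2_fr_zero] at this
  rw [this]; ring

/-- the Euclidean distance of `p - a J t` to `closure D` is at least `a`. -/
theorem Dc2Box.sqDist_closure_ge (hb : Dc2Box D r C p t g) {a : ℝ}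
    (ha : 0 < a) (har : 2 * a ≤ r) (haC : 2 * C * a ≤ 1) {q : ℝ × ℝ} (hq : q ∈ closure D) :
    a ^ 2 ≤ sqDist q (dc2Fr p t 0 (-a)) := by
  by_contra hcon
  exact hb.disc_out ha har haC (not_le.1 hcon) hq

/-! ### 3. The graph map and pieces of the frontier -/

/-- `g` is continuous on `[-r, r]`. -/
theorem Dc2Graph.continuousOn {S : Set (ℝ × ℝ)} (G : Dc2Graph S r C p t g) :
    ContinuousOn g (Set.Icc (-r) r) := by
  have hlip : LipschitzOnWith (Real.toNNReal (2 * C * r)) g (Set.Icc (-r) r) := by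
    refine LipschitzOnWith.of_dist_le_mul (fun x hx y hy => ?_)
    rw [Real.dist_eq, Real.dist_eq]
    refine (G.slope r x y le_rfl (abs_le.2 hx) (abs_le.2 hy)).trans ?_
    exact mul_le_mul_of_nonneg_right (Real.le_coe_toNNReal _) (abs_nonneg _)
  exact hlip.continuousOn

/-- the graph map `x ↦ p + x t + g x J t` is continuous on `[-r, r]`. -/
theorem Dc2Graph.continuousOn_map {S : Set (ℝ × ℝ)} (G : Dc2Graph S r C p t g) :
    ContinuousOn (fun x => dc2Fr p t x (g x)) (Set.Icc (-r) r) := by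
  have h1 : ContinuousOn (fun x => ((x, g x) : ℝ × ℝ)) (Set.Icc (-r) r) :=
    continuousOn_id.prodMk G.continuousOn
  exact (dc2_fr_continuous p t).comp_continuousOn h1

/-- the piece of the graph over a preconnected set of abscissas is preconnected. -/
theorem Dc2Graph.piece_preconnected {S : Set (ℝ × ℝ)} (G : Dc2Graph S r C p t g) {J : Set ℝ}
    (hJ : IsPreconnected J) (hJr : J ⊆ Set.Icc (-r) r) :
    IsPreconnected ((fun x => dc2Fr p t x (g x)) '' J) :=
  hJ.image _ (G.continuousOn_map.mono hJr)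

/-- the piece of the graph is in `S`. -/
theorem Dc2Graph.piece_subset {S : Set (ℝ × ℝ)} (G : Dc2Graph S r C p t g) (hr : 0 < r)
    (hCr : C * r ≤ 1 / 4) {J : Set ℝ} (hJr : J ⊆ Set.Icc (-r) r) :
    (fun x => dc2Fr p t x (g x)) '' J ⊆ S := by
  rintro _ ⟨x, hx, rfl⟩
  have hx' : |x| ≤ r := abs_le.2 (hJr hx)
  have := G.g_le hr hCr hx'
  exact (G.fr x (g x) hx' (this.trans (by linarith))).2 rfl

/-- **arcs.**  For any injective continuous parametrisation `γ` of `S` by a compact space, the set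
of parameters whose image lies in the box over a preconnected set `J` of abscissas is
preconnected. -/
theorem Dc2Graph.arc_preconnected {S : Set (ℝ × ℝ)} (G : Dc2Graph S r C p t g) (hr : 0 < r)
    (hCr : C * r ≤ 1 / 4) {K : Type*} [TopologicalSpace K] [CompactSpace K] {γ : K → ℝ × ℝ}
    (hγ : Continuous γ) (hinj : Function.Injective γ) (hrange : Set.range γ = S) {J : Set ℝ}
    (hJ : IsPreconnected J) (hJr : J ⊆ Set.Icc (-r) r) :
    IsPreconnected {z : K | dc2X p t (γ z) ∈ J ∧ |dc2Y p t (γ z)| ≤ r} := by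
  have hemb : Topology.IsClosedEmbedding γ := hγ.isClosedEmbedding hinj
  have hset : {z : K | dc2X p t (γ z) ∈ J ∧ |dc2Y p t (γ z)| ≤ r}
      = γ ⁻¹' ((fun x => dc2Fr p t x (g x)) '' J) := by
    ext z
    constructor
    · rintro ⟨h1, h2⟩
      have hx' : |dc2X p t (γ z)| ≤ r := abs_le.2 (hJr h1)
      have hzS : γ z ∈ S := hrange ▸ mem_range_self z
      have h3 := (G.fr _ _ hx' h2).1 (by rw [dc2_fr_XY G.unit]; exact hzS)
      refine ⟨dc2X p t (γ z), h1, ?_⟩
      show dc2Fr p t (dc2X p t (γ z)) (g (dc2X p t (γ z))) = γ z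
      rw [← h3, dc2_fr_XY G.unit]
    · rintro ⟨x, hx, hxz⟩
      have hxz' : dc2Fr p t x (g x) = γ z := hxz
      have hx' : |x| ≤ r := abs_le.2 (hJr hx)
      have := G.g_le hr hCr hx'
      show dc2X p t (γ z) ∈ J ∧ |dc2Y p t (γ z)| ≤ r
      rw [← hxz', dc2_X_fr G.unit, dc2_Y_fr G.unit]
      exact ⟨hx, this.trans (by linarith)⟩
  rw [hset, ← hemb.isInducing.isPreconnected_image,
    image_preimage_eq_of_subset (by rw [hrange]; exact G.piece_subset hr hCr hJr)]
  exact G.piece_preconnected hJ hJr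

end box

end Claimed.Agent.R291
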