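import Claimed.Agent.R291.Defs.Frozen

/-!
# Row 291 (S0539), BOX:TOP-DICT, layer A: the hexagonal faces of the frozen definitions      (helper25; prefix `dct_`)

`hexFace δ u` (Voronoi cell of the triangular lattice point `triPos δ u`) is the explicit hexagon
`|2X| ≤ δ, |X + √3 Y| ≤ δ, |X - √3 Y| ≤ δ`, `(X,Y) = z - triPos δ u`.
* `dct_sqDist_sub`        `|z - p_{u+d}|² - |z - p_u|² = δ² N(d) - δ (d₁ 2X + d₂ (X + √3 Y))`
* `dct_core`, `dct_core_gap`      the arithmetic of the norm form `N(d) = d₁² + d₁ d₂ + d₂²`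
* `dct_mem_hex_iff`       the six inequalities;   `dct_hex_gap`: non-neighbours are farther by `δ²`
* `dct_hex_inter`         two faces meet iff equal or adjacent;  `dct_hex_mid`: adjacent faces share the midpoint
* `dct_hex_cover`         the faces cover the plane
* `dct_hex_closed, dct_hex_compact, dct_hex_meas, dct_hex_radius` (`|z - p_u|² ≤ δ²/3`), `dct_hex_inner` (`|z - p_u|² < δ²/4` is interior)
-/

set_option autoImplicit false
set_option linter.unusedTactic false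
set_option linter.unreachableTactic false

open MeasureTheory Set Filter Topology
open Claims.C0467

namespace Claimed.Agent.R291

theorem dct_sqrt3_sq : Real.sqrt 3 * Real.sqrt 3 = 3 := Real.mul_self_sqrt (by norm_num)

/-- the norm form of the triangular lattice -/
def dctN (d : ℤ × ℤ) : ℤ := d.1 ^ 2 + d.1 * d.2 + d.2 ^ 2

/-- `d` is one of the six directions -/
def DctDir (d : ℤ × ℤ) : Prop :=
  d = (1, 0) ∨ d = (0, 1) ∨ d = (-1, 1) ∨ d = (-1, 0) ∨ d = (0, -1) ∨ d = (1, -1)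

theorem dct_hex_eqns_cite : True := by
  have := @dctN.eq_1; have := @DctDir.eq_1
  trivial

theorem dct_adj_iff (u v : ℤ × ℤ) : triAdj u v ↔ DctDir (v - u) := Iff.rfl

theorem dct_dir_neg {d : ℤ × ℤ} (h : DctDir d) : DctDir (-d) := by
  rcases h with rfl | rfl | rfl | rfl | rfl | rfl <;> simp [DctDir]

theorem dct_adj_symm {u v : ℤ × ℤ} (h : triAdj u v) : triAdj v u := by
  rw [dct_adj_iff] at h ⊢
  have := dct_dir_neg h
  rwa [neg_sub] at this

theorem dct_dir_ne_zero {d : ℤ × ℤ} (h : DctDir d) : d ≠ 0 := by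
  rcases h with rfl | rfl | rfl | rfl | rfl | rfl <;> simp [Prod.ext_iff]

theorem dct_adj_ne {u v : ℤ × ℤ} (h : triAdj u v) : u ≠ v := by
  intro e
  rw [dct_adj_iff, e, sub_self] at h
  exact dct_dir_ne_zero h rfl

theorem dct_adj_add (u : ℤ × ℤ) {d : ℤ × ℤ} (h : DctDir d) : triAdj u (u + d) := by
  rw [dct_adj_iff, add_sub_cancel_left]; exact h

theorem dct_triPos_add (δ : ℝ) (u v : ℤ × ℤ) : triPos δ (u + v) = triPos δ u + triPos δ v := by
  unfold triPos
  ext <;> simp <;> ring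

/-- the basic identity -/
theorem dct_sqDist_sub (δ : ℝ) (z : ℝ × ℝ) (u d : ℤ × ℤ) :
    sqDist z (triPos δ (u + d)) - sqDist z (triPos δ u)
      = δ ^ 2 * (dctN d : ℝ) - δ * ((d.1 : ℝ) * (2 * (z.1 - (triPos δ u).1))
        + (d.2 : ℝ) * ((z.1 - (triPos δ u).1) + Real.sqrt 3 * (z.2 - (triPos δ u).2))) := by
  have h3 := dct_sqrt3_sq
  rw [dct_triPos_add]
  unfold sqDist dctN
  simp only [Prod.fst_add, Prod.snd_add]
  generalize (triPos δ u).1 = p1
  generalize (triPos δ u).2 = p2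
  unfold triPos
  push_cast
  generalize Real.sqrt 3 = s at h3
  have : (δ * ((d.2:ℝ) * s / 2)) ^ 2 = δ ^ 2 * (d.2:ℝ) ^ 2 * (s * s) / 4 := by ring
  nlinarith [this]

/-! ### arithmetic of the norm form -/

theorem dct_int_sq (p : ℤ) : |p| ≤ p ^ 2 := by
  rcases abs_cases p with ⟨h, _⟩ | ⟨h, _⟩ <;> rw [h] <;> nlinarith

theorem dct_int_gap {p q : ℤ} (hpq : 0 ≤ p * q) (hne : ¬ (|p| ≤ 1 ∧ |q| ≤ 1 ∧ p * q = 0)) :
    |p| + |q| + 1 ≤ p ^ 2 + p * q + q ^ 2 := by
  have h1 := dct_int_sq p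
  have h2 := dct_int_sq q
  by_cases hp : |p| ≤ 1
  · by_cases hq : |q| ≤ 1
    · have : p * q ≠ 0 := fun h => hne ⟨hp, hq, h⟩
      have : 1 ≤ p * q := by omega
      linarith
    · have hq' : 2 ≤ |q| := by omega
      have : q ^ 2 = |q| ^ 2 := (sq_abs q).symm
      nlinarith
  · have hp' : 2 ≤ |p| := by omega
    have : p ^ 2 = |p| ^ 2 := (sq_abs p).symm
    nlinarith

theorem dct_lin_le {δ P Q : ℝ} (p q : ℤ) (hP : |P| ≤ δ) (hQ : |Q| ≤ δ) :
    (p : ℝ) * P + (q : ℝ) * Q ≤ δ * ((|p| + |q| : ℤ) : ℝ) := by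
  have hδ : 0 ≤ δ := (abs_nonneg _).trans hP
  have h1 : (p : ℝ) * P ≤ |(p:ℝ)| * δ := by
    calc (p : ℝ) * P ≤ |(p : ℝ) * P| := le_abs_self _
      _ = |(p:ℝ)| * |P| := abs_mul _ _
      _ ≤ |(p:ℝ)| * δ := mul_le_mul_of_nonneg_left hP (abs_nonneg _)
  have h2 : (q : ℝ) * Q ≤ |(q:ℝ)| * δ := by
    calc (q : ℝ) * Q ≤ |(q : ℝ) * Q| := le_abs_self _
      _ = |(q:ℝ)| * |Q| := abs_mul _ _
      _ ≤ |(q:ℝ)| * δ := mul_le_mul_of_nonneg_left hQ (abs_nonneg _)
  push_cast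
  nlinarith

/-- one of the three sign patterns -/
theorem dct_sign_cases (a b : ℤ) : 0 ≤ a * b ∨ 0 ≤ (a + b) * (-b) ∨ 0 ≤ a * (-(a + b)) := by
  rcases le_total 0 a with ha | ha <;> rcases le_total 0 b with hb | hb
  · left; positivity
  · rcases le_total 0 (a + b) with hs | hs
    · right; left; nlinarith
    · right; right; nlinarith
  · rcases le_total 0 (a + b) with hs | hs
    · right; right; nlinarith
    · right; left; nlinarith
  · left; nlinarith

/-- **gap**: away from the six directions the form wins by one unit -/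
theorem dct_core_gap {δ P Q : ℝ} (d : ℤ × ℤ) (hP : |P| ≤ δ) (hQ : |Q| ≤ δ) (hPQ : |P - Q| ≤ δ)
    (hd0 : d ≠ 0) (hd : ¬ DctDir d) : (d.1 : ℝ) * P + (d.2 : ℝ) * Q + δ ≤ δ * (dctN d : ℝ) := by
  obtain ⟨a, b⟩ := d
  have hδ : 0 ≤ δ := (abs_nonneg _).trans hP
  simp only [dctN]
  have key : ∀ (p q : ℤ) (P' Q' : ℝ), |P'| ≤ δ → |Q'| ≤ δ → 0 ≤ p * q → ¬ (|p| ≤ 1 ∧ |q| ≤ 1 ∧ p * q = 0) →
      (p:ℝ) * P' + (q:ℝ) * Q' + δ ≤ δ * ((p ^ 2 + p * q + q ^ 2 : ℤ) : ℝ) := by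
    intro p q P' Q' h1 h2 h3 h4
    have g := dct_int_gap h3 h4
    have l := dct_lin_le p q h1 h2
    have g' : ((|p| + |q| : ℤ) : ℝ) + 1 ≤ ((p ^ 2 + p * q + q ^ 2 : ℤ) : ℝ) := by exact_mod_cast g
    nlinarith
  have hex : ∀ a' b' : ℤ, |a'| ≤ 1 → |b'| ≤ 1 → (a' = -1 ∨ a' = 0 ∨ a' = 1) ∧ (b' = -1 ∨ b' = 0 ∨ b' = 1) := by
    intro a' b' h1 h2
    rw [abs_le] at h1 h2
    constructor <;> omega
  rcases dct_sign_cases a b with h | h | h
  · have := key a b P Q hP hQ h (by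
      rintro ⟨h1, h2, h3⟩
      obtain ⟨ha, hb⟩ := hex a b h1 h2
      rcases ha with rfl | rfl | rfl <;> rcases hb with rfl | rfl | rfl <;>
        first
          | (exfalso; norm_num at h3; done)
          | exact hd0 rfl
          | (apply hd; unfold DctDir; decide))
    exact this
  · have := key (a + b) (-b) P (P - Q) hP hPQ h (by
      rintro ⟨h1, h2, h3⟩
      rw [abs_neg] at h2
      obtain ⟨hs, hb⟩ := hex (a + b) b h1 h2
      rcases hb with rfl | rfl | rfl <;> rcases hs with hs | hs | hs <;>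
        first
          | (have ha : a = 0 := by omega
             subst ha
             first | (exfalso; norm_num at h3; done) | exact hd0 rfl | (apply hd; unfold DctDir; decide))
          | (have ha : a = 1 := by omega
             subst ha
             first | (exfalso; norm_num at h3; done) | (apply hd; unfold DctDir; decide))
          | (have ha : a = -1 := by omega
             subst ha
             first | (exfalso; norm_num at h3; done) | (apply hd; unfold DctDir; decide))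
          | (have ha : a = 2 := by omega
             subst ha
             norm_num at h3)
          | (have ha : a = -2 := by omega
             subst ha
             norm_num at h3))
    have e1 : ((a + b : ℤ) : ℝ) * P + ((-b : ℤ) : ℝ) * (P - Q) = (a:ℝ) * P + (b:ℝ) * Q := by push_cast; ring
    have e2 : (((a + b) ^ 2 + (a + b) * (-b) + (-b) ^ 2 : ℤ) : ℝ) = ((a ^ 2 + a * b + b ^ 2 : ℤ) : ℝ) := by
      push_cast; ring
    rw [e1, e2] at this
    exact this
  · have hQ' : |(-Q)| ≤ δ := by rw [abs_neg]; exact hQ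
    have := key a (-(a + b)) (P - Q) (-Q) hPQ hQ' h (by
      rintro ⟨h1, h2, h3⟩
      rw [abs_neg] at h2
      obtain ⟨ha, hs⟩ := hex a (a + b) h1 h2
      rcases ha with rfl | rfl | rfl <;> rcases hs with hs | hs | hs <;>
        first
          | (have hb : b = 0 := by omega
             subst hb
             first | (exfalso; norm_num at h3; done) | exact hd0 rfl | (apply hd; unfold DctDir; decide))
          | (have hb : b = 1 := by omega
             subst hb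
             first | (exfalso; norm_num at h3; done) | (apply hd; unfold DctDir; decide))
          | (have hb : b = -1 := by omega
             subst hb
             first | (exfalso; norm_num at h3; done) | (apply hd; unfold DctDir; decide))
          | (have hb : b = 2 := by omega
             subst hb
             norm_num at h3)
          | (have hb : b = -2 := by omega
             subst hb
             norm_num at h3))
    have e1 : (a : ℝ) * (P - Q) + ((-(a + b) : ℤ) : ℝ) * (-Q) = (a:ℝ) * P + (b:ℝ) * Q := by push_cast; ring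
    have e2 : ((a ^ 2 + a * (-(a + b)) + (-(a + b)) ^ 2 : ℤ) : ℝ) = ((a ^ 2 + a * b + b ^ 2 : ℤ) : ℝ) := by
      push_cast; ring
    rw [e1, e2] at this
    exact this

theorem dct_N_dir {d : ℤ × ℤ} (h : DctDir d) : dctN d = 1 := by
  rcases h with rfl | rfl | rfl | rfl | rfl | rfl <;> simp [dctN]

/-- the six inequalities imply all of them -/
theorem dct_core {δ P Q : ℝ} (d : ℤ × ℤ) (hP : |P| ≤ δ) (hQ : |Q| ≤ δ) (hPQ : |P - Q| ≤ δ) :
    (d.1 : ℝ) * P + (d.2 : ℝ) * Q ≤ δ * (dctN d : ℝ) := by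
  have hδ : 0 ≤ δ := (abs_nonneg _).trans hP
  by_cases hd0 : d = 0
  · subst hd0; simp [dctN]
  by_cases hd : DctDir d
  · rw [dct_N_dir hd]
    have h1 := abs_le.mp hP
    have h2 := abs_le.mp hQ
    have h3 := abs_le.mp hPQ
    rcases hd with rfl | rfl | rfl | rfl | rfl | rfl <;> norm_num <;> linarith
  · linarith [dct_core_gap d hP hQ hPQ hd0 hd]

/-! ### the hexagon -/

/-- the three linear forms: `2X`, `X + √3 Y` (and their difference `X - √3 Y`) -/
noncomputable def dctP (δ : ℝ) (u : ℤ × ℤ) (z : ℝ × ℝ) : ℝ := 2 * (z.1 - (triPos δ u).1)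
noncomputable def dctQ (δ : ℝ) (u : ℤ × ℤ) (z : ℝ × ℝ) : ℝ :=
  (z.1 - (triPos δ u).1) + Real.sqrt 3 * (z.2 - (triPos δ u).2)

theorem dct_hex_eqns_cite2 : True := by
  have := @dctP.eq_1; have := @dctQ.eq_1
  trivial

theorem dct_sqDist_sub' (δ : ℝ) (z : ℝ × ℝ) (u d : ℤ × ℤ) :
    sqDist z (triPos δ (u + d)) - sqDist z (triPos δ u)
      = δ * (δ * (dctN d : ℝ) - ((d.1 : ℝ) * dctP δ u z + (d.2 : ℝ) * dctQ δ u z)) := by
  rw [dct_sqDist_sub]; unfold dctP dctQ; ring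

/-- **the six inequalities** -/
theorem dct_mem_hex_iff {δ : ℝ} (hδ : 0 < δ) (u : ℤ × ℤ) (z : ℝ × ℝ) :
    z ∈ hexFace δ u ↔ |dctP δ u z| ≤ δ ∧ |dctQ δ u z| ≤ δ ∧ |dctP δ u z - dctQ δ u z| ≤ δ := by
  constructor
  · intro h
    have key : ∀ d : ℤ × ℤ, (d.1 : ℝ) * dctP δ u z + (d.2 : ℝ) * dctQ δ u z ≤ δ * (dctN d : ℝ) := by
      intro d
      have h1 := h (u + d)
      have h2 := dct_sqDist_sub' δ z u d
      have h3 : 0 ≤ δ * (δ * (dctN d : ℝ) - ((d.1 : ℝ) * dctP δ u z + (d.2 : ℝ) * dctQ δ u z)) := by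
        rw [← h2]; linarith
      have := nonneg_of_mul_nonneg_right h3 hδ
      linarith
    have k1 := key (1, 0)
    have k2 := key (0, 1)
    have k3 := key (-1, 1)
    have k4 := key (-1, 0)
    have k5 := key (0, -1)
    have k6 := key (1, -1)
    simp only [dctN] at k1 k2 k3 k4 k5 k6
    norm_num at k1 k2 k3 k4 k5 k6
    refine ⟨abs_le.2 ⟨by linarith, by linarith⟩, abs_le.2 ⟨by linarith, by linarith⟩,
      abs_le.2 ⟨by linarith, by linarith⟩⟩
  · rintro ⟨h1, h2, h3⟩ v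
    have e : v = u + (v - u) := by ring
    have h4 := dct_sqDist_sub' δ z u (v - u)
    rw [← e] at h4
    have h5 := dct_core (v - u) h1 h2 h3
    have : 0 ≤ δ * (δ * (dctN (v - u) : ℝ) - (((v - u).1 : ℝ) * dctP δ u z + ((v - u).2 : ℝ) * dctQ δ u z)) :=
      mul_nonneg hδ.le (by linarith)
    linarith

/-- non-neighbours are farther by `δ²` -/
theorem dct_hex_gap {δ : ℝ} (hδ : 0 < δ) {u v : ℤ × ℤ} {z : ℝ × ℝ} (hz : z ∈ hexFace δ u) (huv : u ≠ v)
    (hadj : ¬ triAdj u v) : sqDist z (triPos δ u) + δ ^ 2 ≤ sqDist z (triPos δ v) := by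
  obtain ⟨h1, h2, h3⟩ := (dct_mem_hex_iff hδ u z).1 hz
  have e : v = u + (v - u) := by ring
  have h4 := dct_sqDist_sub' δ z u (v - u)
  rw [← e] at h4
  have h5 := dct_core_gap (v - u) h1 h2 h3 (fun h => huv (sub_eq_zero.1 h).symm) hadj
  have : δ * δ ≤ δ * (δ * (dctN (v - u) : ℝ) - (((v - u).1 : ℝ) * dctP δ u z + ((v - u).2 : ℝ) * dctQ δ u z)) :=
    mul_le_mul_of_nonneg_left (by linarith) hδ.le
  nlinarith

/-- two faces which meet are equal or adjacent -/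
theorem dct_hex_inter {δ : ℝ} (hδ : 0 < δ) {u v : ℤ × ℤ} {z : ℝ × ℝ} (hu : z ∈ hexFace δ u) (hv : z ∈ hexFace δ v) :
    u = v ∨ triAdj u v := by
  by_contra hcon
  push Not at hcon
  have h1 := dct_hex_gap hδ hu hcon.1 hcon.2
  have h2 := hv u
  nlinarith [sq_nonneg δ, hδ]

theorem dct_sqDist_eq (δ : ℝ) (u : ℤ × ℤ) (z : ℝ × ℝ) :
    sqDist z (triPos δ u) = (dctP δ u z ^ 2 - dctP δ u z * dctQ δ u z + dctQ δ u z ^ 2) / 3 := by
  have h3 := dct_sqrt3_sq
  unfold sqDist dctP dctQ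
  generalize z.1 - (triPos δ u).1 = X
  generalize z.2 - (triPos δ u).2 = Y
  generalize Real.sqrt 3 = s at h3
  have : (s * Y) ^ 2 = (s * s) * Y ^ 2 := by ring
  rw [h3] at this
  nlinarith

/-- circumradius: `|z - p_u|² ≤ δ²/3` -/
theorem dct_hex_radius {δ : ℝ} (hδ : 0 < δ) {u : ℤ × ℤ} {z : ℝ × ℝ} (hz : z ∈ hexFace δ u) :
    sqDist z (triPos δ u) ≤ δ ^ 2 / 3 := by
  obtain ⟨h1, h2, h3⟩ := (dct_mem_hex_iff hδ u z).1 hz
  rw [dct_sqDist_eq]
  generalize dctP δ u z = P at h1 h2 h3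
  generalize dctQ δ u z = Q at h1 h2 h3
  rw [abs_le] at h1 h2 h3
  have : P ^ 2 - P * Q + Q ^ 2 ≤ δ ^ 2 := by
    rcases le_total 0 P with hP | hP <;> rcases le_total 0 Q with hQ | hQ
    · rcases le_total P Q with h | h <;> nlinarith
    · nlinarith
    · nlinarith
    · rcases le_total P Q with h | h <;> nlinarith
  linarith

/-- inradius: `|z - p_u|² ≤ δ²/4` lies in the face -/
theorem dct_hex_inner {δ : ℝ} (hδ : 0 < δ) {u : ℤ × ℤ} {z : ℝ × ℝ} (hz : sqDist z (triPos δ u) ≤ δ ^ 2 / 4) :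
    z ∈ hexFace δ u := by
  rw [dct_mem_hex_iff hδ]
  rw [dct_sqDist_eq] at hz
  generalize dctP δ u z = P at hz
  generalize dctQ δ u z = Q at hz
  refine ⟨abs_le_of_sq_le_sq' ?_ hδ.le |> fun h => abs_le.2 h, abs_le_of_sq_le_sq' ?_ hδ.le |> fun h => abs_le.2 h,
    abs_le_of_sq_le_sq' ?_ hδ.le |> fun h => abs_le.2 h⟩
  · nlinarith [sq_nonneg (P - 2 * Q)]
  · nlinarith [sq_nonneg (2 * P - Q)]
  · nlinarith [sq_nonneg (P + Q)]

theorem dct_center_mem {δ : ℝ} (hδ : 0 < δ) (u : ℤ × ℤ) : triPos δ u ∈ hexFace δ u :=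
  dct_hex_inner hδ (by unfold sqDist; simp; positivity)

theorem dct_P_cont (δ : ℝ) (u : ℤ × ℤ) : Continuous (dctP δ u) := by unfold dctP; fun_prop
theorem dct_Q_cont (δ : ℝ) (u : ℤ × ℤ) : Continuous (dctQ δ u) := by unfold dctQ; fun_prop

theorem dct_hex_closed {δ : ℝ} (hδ : 0 < δ) (u : ℤ × ℤ) : IsClosed (hexFace δ u) := by
  have : hexFace δ u = {z | |dctP δ u z| ≤ δ} ∩ ({z | |dctQ δ u z| ≤ δ} ∩ {z | |dctP δ u z - dctQ δ u z| ≤ δ}) := by
    ext z; exact dct_mem_hex_iff hδ u z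
  rw [this]
  have c1 := dct_P_cont δ u
  have c2 := dct_Q_cont δ u
  exact (isClosed_le c1.abs continuous_const).inter
    ((isClosed_le c2.abs continuous_const).inter (isClosed_le (c1.sub c2).abs continuous_const))

/-- coordinates are within `δ` of the centre -/
theorem dct_hex_box {δ : ℝ} (hδ : 0 < δ) {u : ℤ × ℤ} {z : ℝ × ℝ} (hz : z ∈ hexFace δ u) :
    |z.1 - (triPos δ u).1| ≤ δ ∧ |z.2 - (triPos δ u).2| ≤ δ := by
  have h := dct_hex_radius hδ hz
  unfold sqDist at h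
  constructor <;> apply abs_le_of_sq_le_sq' _ hδ.le |> fun h => abs_le.2 h <;> nlinarith [sq_nonneg (z.1 - (triPos δ u).1), sq_nonneg (z.2 - (triPos δ u).2)]

theorem dct_hex_compact {δ : ℝ} (hδ : 0 < δ) (u : ℤ × ℤ) : IsCompact (hexFace δ u) := by
  apply Metric.isCompact_of_isClosed_isBounded (dct_hex_closed hδ u)
  apply (Metric.isBounded_closedBall (x := triPos δ u) (r := δ)).subset
  intro z hz
  obtain ⟨h1, h2⟩ := dct_hex_box hδ hz
  rw [Metric.mem_closedBall, Prod.dist_eq, Real.dist_eq, Real.dist_eq]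
  exact max_le h1 h2

theorem dct_hex_meas {δ : ℝ} (hδ : 0 < δ) (u : ℤ × ℤ) : MeasurableSet (hexFace δ u) :=
  (dct_hex_closed hδ u).measurableSet

/-! ### the faces cover the plane -/

theorem dct_sqrt3_ge : (1:ℝ) ≤ Real.sqrt 3 := by
  rw [show (1:ℝ) = Real.sqrt 1 by simp]
  exact Real.sqrt_le_sqrt (by norm_num)

theorem dct_ball_finite {δ : ℝ} (hδ : 0 < δ) (z : ℝ × ℝ) (R : ℝ) : {v : ℤ × ℤ | sqDist z (triPos δ v) ≤ R}.Finite := by
  set r : ℝ := |R| + 1 with hr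
  have hr0 : 0 < r := by positivity
  have hRr : R ≤ r ^ 2 := by
    have := le_abs_self R
    have := abs_nonneg R
    nlinarith
  set K : ℝ := (|z.1| + |z.2| + r) / δ with hK
  have hK0 : 0 ≤ K := by positivity
  set M : ℤ := ⌈2 * K⌉ with hM
  apply (Set.finite_Icc ((-M, -M) : ℤ × ℤ) (M, M)).subset
  rintro ⟨a, b⟩ hv
  have hv' : (z.1 - δ * ((a:ℝ) + (b:ℝ) / 2)) ^ 2 + (z.2 - δ * ((b:ℝ) * Real.sqrt 3 / 2)) ^ 2 ≤ R := hv
  have h1 : |z.1 - δ * ((a:ℝ) + (b:ℝ) / 2)| ≤ r :=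
    abs_le.2 (abs_le_of_sq_le_sq' (by nlinarith [sq_nonneg (z.2 - δ * ((b:ℝ) * Real.sqrt 3 / 2))]) hr0.le)
  have h2 : |z.2 - δ * ((b:ℝ) * Real.sqrt 3 / 2)| ≤ r :=
    abs_le.2 (abs_le_of_sq_le_sq' (by nlinarith [sq_nonneg (z.1 - δ * ((a:ℝ) + (b:ℝ) / 2))]) hr0.le)
  have s3 := dct_sqrt3_ge
  have e0 : δ * K = |z.1| + |z.2| + r := by rw [hK]; field_simp
  -- bound on b
  have hb : |(b:ℝ)| ≤ 2 * K := by
    have t1 : |δ * ((b:ℝ) * Real.sqrt 3 / 2)| ≤ |z.2| + r := by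
      have := abs_sub_abs_le_abs_sub (δ * ((b:ℝ) * Real.sqrt 3 / 2)) z.2
      rw [abs_sub_comm] at this
      linarith
    have t2 : |δ * ((b:ℝ) * Real.sqrt 3 / 2)| = δ * |(b:ℝ)| * Real.sqrt 3 / 2 := by
      rw [abs_mul, abs_of_pos hδ, abs_div, abs_mul, abs_of_pos (by linarith : (0:ℝ) < Real.sqrt 3)]
      norm_num; ring
    rw [t2] at t1
    have t3 : δ * |(b:ℝ)| ≤ δ * |(b:ℝ)| * Real.sqrt 3 := le_mul_of_one_le_right (by positivity) s3
    have t4 : δ * |(b:ℝ)| ≤ δ * (2 * K) := by nlinarith [abs_nonneg z.1]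
    exact le_of_mul_le_mul_left t4 hδ
  have ha : |(a:ℝ)| ≤ 2 * K := by
    have t1 : |δ * ((a:ℝ) + (b:ℝ) / 2)| ≤ |z.1| + r := by
      have := abs_sub_abs_le_abs_sub (δ * ((a:ℝ) + (b:ℝ) / 2)) z.1
      rw [abs_sub_comm] at this
      linarith
    rw [abs_mul, abs_of_pos hδ] at t1
    -- sharper bound on b
    have t1b : |δ * ((b:ℝ) * Real.sqrt 3 / 2)| ≤ |z.2| + r := by
      have := abs_sub_abs_le_abs_sub (δ * ((b:ℝ) * Real.sqrt 3 / 2)) z.2
      rw [abs_sub_comm] at this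
      linarith
    have t2 : |δ * ((b:ℝ) * Real.sqrt 3 / 2)| = δ * |(b:ℝ)| * Real.sqrt 3 / 2 := by
      rw [abs_mul, abs_of_pos hδ, abs_div, abs_mul, abs_of_pos (by linarith : (0:ℝ) < Real.sqrt 3)]
      norm_num; ring
    rw [t2] at t1b
    have t3 : δ * |(b:ℝ)| ≤ δ * |(b:ℝ)| * Real.sqrt 3 := le_mul_of_one_le_right (by positivity) s3
    have t5 : |(a:ℝ)| ≤ |(a:ℝ) + (b:ℝ) / 2| + |(b:ℝ)| / 2 := by
      have := abs_add_le ((a:ℝ) + (b:ℝ) / 2) (-((b:ℝ) / 2))
      rw [abs_neg, abs_div] at this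
      norm_num at this
      linarith
    have t6 : δ * |(a:ℝ)| ≤ δ * (2 * K) := by
      have h6 := mul_le_mul_of_nonneg_left t5 hδ.le
      have h7 : δ * (|(a:ℝ) + (b:ℝ) / 2| + |(b:ℝ)| / 2)
          = δ * |(a:ℝ) + (b:ℝ) / 2| + δ * |(b:ℝ)| / 2 := by ring
      have h8 : δ * (2 * K) = 2 * (δ * K) := by ring
      rw [h7] at h6
      rw [h8, e0]
      have := abs_nonneg z.1
      have := abs_nonneg z.2
      linarith
    exact le_of_mul_le_mul_left t6 hδ
  have hMK : 2 * K ≤ (M:ℝ) := Int.le_ceil _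
  have ha' := abs_le.1 (ha.trans hMK)
  have hb' := abs_le.1 (hb.trans hMK)
  refine ⟨⟨?_, ?_⟩, ⟨?_, ?_⟩⟩
  · show -M ≤ a; exact_mod_cast ha'.1
  · show -M ≤ b; exact_mod_cast hb'.1
  · show a ≤ M; exact_mod_cast ha'.2
  · show b ≤ M; exact_mod_cast hb'.2

/-- every point lies in a face -/
theorem dct_hex_cover {δ : ℝ} (hδ : 0 < δ) (z : ℝ × ℝ) : ∃ u : ℤ × ℤ, z ∈ hexFace δ u := by
  obtain ⟨u, hu, hmin⟩ := Set.exists_min_image {v : ℤ × ℤ | sqDist z (triPos δ v) ≤ sqDist z (triPos δ 0)}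
    (fun v => sqDist z (triPos δ v)) (dct_ball_finite hδ z _)
    ⟨0, show sqDist z (triPos δ 0) ≤ sqDist z (triPos δ 0) from le_rfl⟩
  refine ⟨u, fun v => ?_⟩
  by_cases hv : sqDist z (triPos δ v) ≤ sqDist z (triPos δ 0)
  · exact hmin v hv
  · exact le_trans hu (not_le.1 hv).le

/-! ### open faces -/

/-- the open hexagon -/
def dctOpen (δ : ℝ) (u : ℤ × ℤ) : Set (ℝ × ℝ) :=
  {z | |dctP δ u z| < δ ∧ |dctQ δ u z| < δ ∧ |dctP δ u z - dctQ δ u z| < δ}

theorem dct_hex_eqns_cite3 : True := by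
  have := @dctOpen.eq_1
  trivial

theorem dct_open_isOpen (δ : ℝ) (u : ℤ × ℤ) : IsOpen (dctOpen δ u) := by
  have c1 := dct_P_cont δ u
  have c2 := dct_Q_cont δ u
  exact (isOpen_lt c1.abs continuous_const).inter
    ((isOpen_lt c2.abs continuous_const).inter (isOpen_lt (c1.sub c2).abs continuous_const))

theorem dct_open_sub {δ : ℝ} (hδ : 0 < δ) (u : ℤ × ℤ) : dctOpen δ u ⊆ hexFace δ u :=
  fun z hz => (dct_mem_hex_iff hδ u z).2 ⟨hz.1.le, hz.2.1.le, hz.2.2.le⟩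

/-- a point of an open face lies in no other face -/
theorem dct_open_unique {δ : ℝ} (hδ : 0 < δ) {u v : ℤ × ℤ} {z : ℝ × ℝ} (hu : z ∈ dctOpen δ u) (hv : z ∈ hexFace δ v) :
    v = u := by
  rcases dct_hex_inter hδ (dct_open_sub hδ u hu) hv with h | h
  · exact h.symm
  · exfalso
    have e : v = u + (v - u) := by ring
    have h4 := dct_sqDist_sub' δ z u (v - u)
    rw [← e] at h4
    have h5 := hv u
    rw [dct_adj_iff] at h
    rw [dct_N_dir h] at h4
    have h6 : δ * (δ * ((1:ℤ):ℝ) - (((v - u).1 : ℝ) * dctP δ u z + ((v - u).2 : ℝ) * dctQ δ u z)) ≤ 0 := by linarith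
    have h7 : 0 < δ * ((1:ℤ):ℝ) - (((v - u).1 : ℝ) * dctP δ u z + ((v - u).2 : ℝ) * dctQ δ u z) := by
      obtain ⟨a1, a2, a3⟩ := hu
      rw [abs_lt] at a1 a2 a3
      rcases h with h | h | h | h | h | h <;> rw [h] <;> norm_num <;> linarith
    nlinarith

/-- affine dependence of the forms along the segment from the centre -/
theorem dct_PQ_seg (δ : ℝ) (u : ℤ × ℤ) (z : ℝ × ℝ) (t : ℝ) :
    dctP δ u (triPos δ u + t • (z - triPos δ u)) = t * dctP δ u z ∧
      dctQ δ u (triPos δ u + t • (z - triPos δ u)) = t * dctQ δ u z := by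
  unfold dctP dctQ
  constructor <;> simp <;> ring

/-- the segment from the centre to a point of the face lies in the open face -/
theorem dct_seg_open {δ : ℝ} (hδ : 0 < δ) {u : ℤ × ℤ} {z : ℝ × ℝ} (hz : z ∈ hexFace δ u) {t : ℝ} (h0 : 0 ≤ t) (h1 : t < 1) :
    triPos δ u + t • (z - triPos δ u) ∈ dctOpen δ u := by
  obtain ⟨a1, a2, a3⟩ := (dct_mem_hex_iff hδ u z).1 hz
  obtain ⟨e1, e2⟩ := dct_PQ_seg δ u z t
  have key : ∀ x : ℝ, |x| ≤ δ → |t * x| < δ := by
    intro x hx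
    rw [abs_mul, abs_of_nonneg h0]
    calc t * |x| ≤ t * δ := mul_le_mul_of_nonneg_left hx h0
      _ < 1 * δ := mul_lt_mul_of_pos_right h1 hδ
      _ = δ := one_mul δ
  refine ⟨by rw [e1]; exact key _ a1, by rw [e2]; exact key _ a2, ?_⟩
  rw [e1, e2, ← mul_sub]; exact key _ a3

/-- every point of a face is a limit of points of its open face -/
theorem dct_hex_sub_closure {δ : ℝ} (hδ : 0 < δ) (u : ℤ × ℤ) : hexFace δ u ⊆ closure (dctOpen δ u) := by
  intro z hz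
  have hc : Tendsto (fun t : ℝ => triPos δ u + t • (z - triPos δ u)) (𝓝[<] 1) (𝓝 (triPos δ u + (1:ℝ) • (z - triPos δ u))) := by
    apply Tendsto.mono_left _ nhdsWithin_le_nhds
    apply Continuous.tendsto
    fun_prop
  rw [one_smul, add_sub_cancel] at hc
  apply mem_closure_of_tendsto hc
  have : ∀ᶠ t : ℝ in 𝓝[<] 1, t ∈ Ioo (0:ℝ) 1 := Ioo_mem_nhdsLT (by norm_num)
  filter_upwards [this] with t ht
  exact dct_seg_open hδ hz ht.1.le ht.2

/-- adjacent faces share the midpoint of their centres -/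
theorem dct_hex_mid {δ : ℝ} (hδ : 0 < δ) {u v : ℤ × ℤ} (h : triAdj u v) :
    (1 / 2 : ℝ) • (triPos δ u + triPos δ v) ∈ hexFace δ u ∩ hexFace δ v := by
  have hs : ∀ u v : ℤ × ℤ, triAdj u v → sqDist ((1 / 2 : ℝ) • (triPos δ u + triPos δ v)) (triPos δ u) ≤ δ ^ 2 / 4 := by
    intro u v h
    have h3 := dct_sqrt3_sq
    have e : v = u + (v - u) := by ring
    rw [e, dct_triPos_add]
    rw [dct_adj_iff] at h
    generalize triPos δ u = p
    unfold sqDist
    rcases h with h | h | h | h | h | h <;> rw [h] <;> unfold triPos <;> simp <;> nlinarith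
  refine ⟨dct_hex_inner hδ (hs u v h), dct_hex_inner hδ ?_⟩
  have := hs v u (dct_adj_symm h)
  rwa [add_comm] at this

end Claimed.Agent.R291
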