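import Claimed.Agent.R291.Top.Mom

/-!
# Row 291 (S0539), Dict/Law : THE FROZEN LAW ON LATTICE HEIGHTS      (owner helper168; prefix `dctl_`, defs `dctl*`, `DctlAdm`)      complete

Mathlib + the frozen Def_0467 + Top/Mom only (this file must NOT import Defs/Lat: the instance `latAdjDec` clashes with the
classical instances inside the frozen `admissibleHeights`).  TEX: 01-introduction, "weighted Lipschitz heights", display (1.1).
* `dctl_mem_adm`        membership in the frozen `admissibleHeights F`: the box `|h| ≤ card F` is free (ray argument `dctl_ray`, `dctl_bound`)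
* `DctlAdm F H`         admissible heights as TOTAL functions `H : ℤ × ℤ → ℤ`; `dctl_adm_at`, `dctl_adm_res`, `dctl_sum_transport`
* `dctl_changes`        `heightChanges h` = number of ALL the unequal positive edges (`dctlN G`, any `G ⊇ F`)
* `dctl_pairing`        `heightPairing δ f h = dctlP δ F f (heightAt h)`
* `dctlE x F G`         expectation of an observable of the total height; `dctl_expect` (= `lipschitzExpect`), `dctl_E_transport`
* linear / monotone API, height reflection `dctl_E_neg`, `dctl_E_odd`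
The vocabulary of the row is `Defs/Ht` (`htE`, `htFz`): the bridge `ht_bridge` is in `Ht/Basic.lean`.
-/

set_option autoImplicit false

namespace Claimed.Agent.R291

open Claims.C0467 MeasureTheory ProbabilityTheory Filter Topology BoundedContinuousFunction

noncomputable section

/-! ## 1. `heightAt` -/

theorem dctl_at_mem {F : Finset (ℤ × ℤ)} (h : F → ℤ) {u : ℤ × ℤ} (hu : u ∈ F) : heightAt h u = h ⟨u, hu⟩ := by
  unfold heightAt
  rw [dif_pos hu]

theorem dctl_at_not_mem {F : Finset (ℤ × ℤ)} (h : F → ℤ) {u : ℤ × ℤ} (hu : u ∉ F) : heightAt h u = 0 := by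
  unfold heightAt
  rw [dif_neg hu]

theorem dctl_at_coe {F : Finset (ℤ × ℤ)} (h : F → ℤ) (u : F) : heightAt h (u : ℤ × ℤ) = h u :=
  dctl_at_mem h u.2

theorem dctl_at_inj (F : Finset (ℤ × ℤ)) : Function.Injective (heightAt : (F → ℤ) → ℤ × ℤ → ℤ) := by
  intro h g hg
  funext u
  rw [← dctl_at_coe h u, ← dctl_at_coe g u, hg]

/-- restriction of a height on the lattice to the faces of `F` -/
def dctlRes (F : Finset (ℤ × ℤ)) (H : ℤ × ℤ → ℤ) : F → ℤ := fun u => H u

theorem dctl_res_eqns_cite : True := by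
  have := @dctlRes.eq_1
  trivial

theorem dctl_at_res {F : Finset (ℤ × ℤ)} {H : ℤ × ℤ → ℤ} (h0 : ∀ u, u ∉ F → H u = 0) : heightAt (dctlRes F H) = H := by
  funext u
  by_cases hu : u ∈ F
  · rw [dctl_at_mem _ hu]; rfl
  · rw [dctl_at_not_mem _ hu, h0 u hu]

theorem dctl_res_at {F : Finset (ℤ × ℤ)} (h : F → ℤ) : dctlRes F (heightAt h) = h := by
  funext u
  exact dctl_at_coe h u

/-! ## 2. the ray argument: the box `|h| ≤ card F` is free -/

theorem dctl_adj_right (u : ℤ × ℤ) : triAdj u (u + (1, 0)) := by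
  left
  simp

/-- from every face of `F` the horizontal ray leaves `F`: the last face of the ray in `F` is a boundary face -/
theorem dctl_ray (F : Finset (ℤ × ℤ)) {u : ℤ × ℤ} (hu : u ∈ F) :
    ∃ k : ℕ, (∀ i : ℕ, i ≤ k → u + ((i : ℤ), 0) ∈ F) ∧ u + (((k + 1 : ℕ) : ℤ), 0) ∉ F ∧ k + 1 ≤ F.card := by
  classical
  -- some point of the ray is outside
  have hinj : Function.Injective (fun i : ℕ => u + ((i : ℤ), (0 : ℤ))) := by
    intro i j hij
    have := congrArg Prod.fst hij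
    simpa using this
  have hex : ∃ i : ℕ, u + ((i : ℤ), (0 : ℤ)) ∉ F := by
    by_contra hcon
    push Not at hcon
    exact (Set.infinite_range_of_injective hinj).not_finite (F.finite_toSet.subset (by rintro _ ⟨i, rfl⟩; exact hcon i))
  have hfind := Nat.find_spec hex
  have hmin : ∀ i, i < Nat.find hex → u + ((i : ℤ), (0 : ℤ)) ∈ F := fun i hi => by
    have := Nat.find_min hex hi
    push Not at this
    exact this
  have hpos : 0 < Nat.find hex := by
    rcases Nat.eq_zero_or_pos (Nat.find hex) with h0 | h0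
    · exfalso
      rw [h0] at hfind
      apply hfind
      have e : u + (((0 : ℕ) : ℤ), (0 : ℤ)) = u := by ext <;> simp
      rw [e]; exact hu
    · exact h0
  obtain ⟨k, hk⟩ : ∃ k, Nat.find hex = k + 1 := ⟨Nat.find hex - 1, by omega⟩
  refine ⟨k, fun i hi => hmin i (by omega), by rw [← hk]; exact hfind, ?_⟩
  have hsub : (Finset.range (k + 1)).image (fun i : ℕ => u + ((i : ℤ), (0 : ℤ))) ⊆ F := by
    intro w hw
    obtain ⟨i, hi, rfl⟩ := Finset.mem_image.1 hw
    exact hmin i (by rw [hk]; exact Finset.mem_range.1 hi)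
  have := Finset.card_le_card hsub
  rwa [Finset.card_image_of_injective _ hinj, Finset.card_range] at this

/-- **the a priori bound**: a Lipschitz height vanishing on the boundary layer is bounded by `card F` -/
theorem dctl_bound {F : Finset (ℤ × ℤ)} {h : F → ℤ} (h0 : ∀ u ∈ F, (∃ v, triAdj u v ∧ v ∉ F) → heightAt h u = 0)
    (hL : ∀ u ∈ F, ∀ v ∈ F, triAdj u v → |heightAt h u - heightAt h v| ≤ 1) {u : ℤ × ℤ} (hu : u ∈ F) :
    |heightAt h u| + 1 ≤ (F.card : ℤ) := by
  obtain ⟨k, hk1, hk2, hk3⟩ := dctl_ray F hu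
  have hend : heightAt h (u + ((k : ℤ), 0)) = 0 := by
    refine h0 _ (hk1 k le_rfl) ⟨u + (((k + 1 : ℕ) : ℤ), 0), ?_, hk2⟩
    have := dctl_adj_right (u + ((k : ℤ), 0))
    have e : u + ((k : ℤ), (0 : ℤ)) + (1, 0) = u + (((k + 1 : ℕ) : ℤ), 0) := by
      ext <;> simp <;> ring
    rwa [e] at this
  have key : ∀ i : ℕ, i ≤ k → |heightAt h u - heightAt h (u + ((i : ℤ), 0))| ≤ i := by
    intro i
    induction i with
    | zero =>
      intro _
      have e : u + (((0 : ℕ) : ℤ), (0 : ℤ)) = u := by ext <;> simp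
      rw [e]; simp
    | succ i ih =>
      intro hi
      have h1 := ih (by omega)
      have e : u + ((i : ℤ), (0 : ℤ)) + (1, 0) = u + (((i + 1 : ℕ) : ℤ), 0) := by
        ext <;> simp <;> ring
      have h2 := hL _ (hk1 i (by omega)) _ (hk1 (i + 1) hi) (by rw [← e]; exact dctl_adj_right _)
      have h3 := abs_sub_le (heightAt h u) (heightAt h (u + ((i : ℤ), 0))) (heightAt h (u + (((i + 1 : ℕ) : ℤ), 0)))
      push_cast at h3 h2 ⊢
      linarith
  have h4 := key k le_rfl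
  rw [hend, sub_zero] at h4
  have : ((k : ℤ) + 1) ≤ (F.card : ℤ) := by exact_mod_cast hk3
  linarith

/-- **membership in `admissibleHeights`**: the box is free -/
theorem dctl_mem_adm {F : Finset (ℤ × ℤ)} (h : F → ℤ) :
    h ∈ admissibleHeights F ↔ (∀ u ∈ F, (∃ v, triAdj u v ∧ v ∉ F) → heightAt h u = 0) ∧
      ∀ u ∈ F, ∀ v ∈ F, triAdj u v → |heightAt h u - heightAt h v| ≤ 1 := by
  classical
  unfold admissibleHeights
  rw [Finset.mem_filter]
  refine ⟨fun H => H.2, fun H => ⟨?_, H⟩⟩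
  rw [Fintype.mem_piFinset]
  intro a
  have hb := dctl_bound H.1 H.2 a.2
  rw [dctl_at_coe] at hb
  rw [Finset.mem_Icc]
  have := abs_le.1 (by linarith : |h a| ≤ (F.card : ℤ))
  exact this

/-! ## 3. admissible heights on the whole lattice, transport of sums -/

/-- **admissible heights as functions on the lattice**: `0` off `F` and on the boundary layer of `F`, and GLOBALLY 1-Lipschitz -/
def DctlAdm (F : Finset (ℤ × ℤ)) (H : ℤ × ℤ → ℤ) : Prop :=
  (∀ u, u ∉ F → H u = 0) ∧ (∀ u ∈ F, (∃ v, triAdj u v ∧ v ∉ F) → H u = 0) ∧ ∀ u v, triAdj u v → |H u - H v| ≤ 1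

theorem dctl_adm_eqns_cite : True := by
  have := @DctlAdm.eq_1
  trivial

theorem dctl_adj_symm {u v : ℤ × ℤ} (h : triAdj u v) : triAdj v u := by
  unfold triAdj at h ⊢
  have e : u - v = -(v - u) := by ring
  rw [e]
  rcases h with h | h | h | h | h | h <;> rw [h] <;> simp

theorem dctl_adm_at {F : Finset (ℤ × ℤ)} (h : F → ℤ) : h ∈ admissibleHeights F ↔ DctlAdm F (heightAt h) := by
  rw [dctl_mem_adm]
  constructor
  · rintro ⟨h0, hL⟩
    refine ⟨fun u hu => dctl_at_not_mem h hu, h0, fun u v huv => ?_⟩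
    by_cases hu : u ∈ F
    · by_cases hv : v ∈ F
      · exact hL u hu v hv huv
      · rw [h0 u hu ⟨v, huv, hv⟩, dctl_at_not_mem h hv]; simp
    · by_cases hv : v ∈ F
      · rw [h0 v hv ⟨u, dctl_adj_symm huv, hu⟩, dctl_at_not_mem h hu]; simp
      · rw [dctl_at_not_mem h hu, dctl_at_not_mem h hv]; simp
  · rintro ⟨-, h0, hL⟩
    exact ⟨h0, fun u _ v _ huv => hL u v huv⟩

theorem dctl_adm_res {F : Finset (ℤ × ℤ)} {H : ℤ × ℤ → ℤ} (hH : DctlAdm F H) : dctlRes F H ∈ admissibleHeights F := by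
  rw [dctl_adm_at, dctl_at_res hH.1]
  exact hH

/-- the a priori bound on the lattice -/
theorem dctl_adm_bound {F : Finset (ℤ × ℤ)} {H : ℤ × ℤ → ℤ} (hH : DctlAdm F H) (u : ℤ × ℤ) : |H u| ≤ (F.card : ℤ) := by
  by_cases hu : u ∈ F
  · have h1 := (dctl_mem_adm _).1 (dctl_adm_res hH)
    have h2 := dctl_bound h1.1 h1.2 hu
    rw [dctl_at_res hH.1] at h2
    linarith
  · rw [hH.1 u hu]; simp

/-- **transport**: a sum over `admissibleHeights F` is the sum over ANY finite set of lattice heights with the membership `DctlAdm F` -/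
theorem dctl_sum_transport {F : Finset (ℤ × ℤ)} {S : Finset (ℤ × ℤ → ℤ)} (hS : ∀ H, H ∈ S ↔ DctlAdm F H) (Ψ : (ℤ × ℤ → ℤ) → ℝ) :
    ∑ h ∈ admissibleHeights F, Ψ (heightAt h) = ∑ H ∈ S, Ψ H := by
  refine Finset.sum_bij (fun h _ => heightAt h) (fun h hh => (hS _).2 ((dctl_adm_at h).1 hh)) (fun h _ g _ hg => dctl_at_inj F hg)
    (fun H hH => ⟨dctlRes F H, dctl_adm_res ((hS H).1 hH), dctl_at_res ((hS H).1 hH).1⟩) (fun _ _ => rfl)

open Classical in
/-- the finite set of the admissible lattice heights -/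
def dctlSet (F : Finset (ℤ × ℤ)) : Finset (ℤ × ℤ → ℤ) := (admissibleHeights F).image heightAt

theorem dctl_set_eqns_cite : True := by
  have := @dctlSet.eq_1
  trivial

theorem dctl_mem_set {F : Finset (ℤ × ℤ)} (H : ℤ × ℤ → ℤ) : H ∈ dctlSet F ↔ DctlAdm F H := by
  classical
  unfold dctlSet
  rw [Finset.mem_image]
  constructor
  · rintro ⟨h, hh, rfl⟩
    exact (dctl_adm_at h).1 hh
  · intro hH
    exact ⟨dctlRes F H, dctl_adm_res hH, dctl_at_res hH.1⟩

/-! ## 4. the number of height changes -/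

/-- the three positive directions: every unordered adjacent pair is `{u, u + d}` for exactly one `(u, d)` -/
def dctlDirs : Finset (ℤ × ℤ) := {(1, 0), (0, 1), (-1, 1)}

open Classical in
/-- the number of unequal edges `{u, u + d}`, `u ∈ G` -/
def dctlN (G : Finset (ℤ × ℤ)) (H : ℤ × ℤ → ℤ) : ℕ := ∑ u ∈ G, ∑ d ∈ dctlDirs, if H u ≠ H (u + d) then 1 else 0

theorem dctl_N_eqns_cite : True := by
  have := @dctlN.eq_1; have := @dctlDirs.eq_1
  trivial

theorem dctl_adj_dir {u d : ℤ × ℤ} (hd : d ∈ dctlDirs) : triAdj u (u + d) := by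
  unfold dctlDirs at hd
  simp only [Finset.mem_insert, Finset.mem_singleton] at hd
  unfold triAdj
  rw [add_sub_cancel_left]
  rcases hd with h | h | h
  · exact Or.inl h
  · exact Or.inr (Or.inl h)
  · exact Or.inr (Or.inr (Or.inl h))

/-- **`heightChanges` counts ALL the unequal edges of the lattice**: for an admissible height the restriction `u + d ∈ F` is void and `F` may be enlarged -/
theorem dctl_changes {F G : Finset (ℤ × ℤ)} (hFG : F ⊆ G) {h : F → ℤ} (hh : h ∈ admissibleHeights F) :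
    heightChanges h = dctlN G (heightAt h) := by
  classical
  obtain ⟨a0, a1, -⟩ := (dctl_adm_at h).1 hh
  unfold heightChanges dctlN
  rw [← Finset.sum_subset hFG]
  · refine Finset.sum_congr rfl (fun u hu => Finset.sum_congr rfl (fun d hd => ?_))
    by_cases hud : u + d ∈ F
    · simp [hud]
    · have e1 : heightAt h u = 0 := a1 u hu ⟨u + d, dctl_adj_dir hd, hud⟩
      have e2 : heightAt h (u + d) = 0 := a0 _ hud
      simp [hud, e1, e2]
  · intro u _ hu
    refine Finset.sum_eq_zero (fun d hd => ?_)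
    have e1 : heightAt h u = 0 := a0 u hu
    have e2 : heightAt h (u + d) = 0 := by
      by_cases hud : u + d ∈ F
      · exact a1 _ hud ⟨u, dctl_adj_symm (dctl_adj_dir hd), hu⟩
      · exact a0 _ hud
    simp [e1, e2]

/-! ## 5. the pairing -/

/-- the face weight `w_{δ,f}(u) = ∫_{face at u} f` -/
def dctlW (δ : ℝ) (f : ℝ × ℝ → ℝ) (u : ℤ × ℤ) : ℝ := ∫ z in hexFace δ u, f z

/-- the pairing of a lattice height with a test function -/
def dctlP (δ : ℝ) (F : Finset (ℤ × ℤ)) (f : ℝ × ℝ → ℝ) (H : ℤ × ℤ → ℤ) : ℝ := ∑ u ∈ F, dctlW δ f u * (H u : ℝ)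

theorem dctl_P_eqns_cite : True := by
  have := @dctlW.eq_1; have := @dctlP.eq_1
  trivial

theorem dctl_pairing (δ : ℝ) {F : Finset (ℤ × ℤ)} (f : ℝ × ℝ → ℝ) (h : F → ℤ) : heightPairing δ f h = dctlP δ F f (heightAt h) := by
  unfold heightPairing dctlP dctlW
  exact Finset.sum_coe_sort F (fun u => (∫ z in hexFace δ u, f z) * (heightAt h u : ℝ))

/-- the pairing does not see faces where the height vanishes: `F` may be replaced by any `G ⊇ F` -/
theorem dctl_P_mono (δ : ℝ) {F G : Finset (ℤ × ℤ)} (hFG : F ⊆ G) (f : ℝ × ℝ → ℝ) {H : ℤ × ℤ → ℤ} (h0 : ∀ u, u ∉ F → H u = 0) :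
    dctlP δ F f H = dctlP δ G f H := by
  unfold dctlP
  refine Finset.sum_subset hFG (fun u _ hu => ?_)
  rw [h0 u hu]; simp

theorem dctl_P_neg (δ : ℝ) (F : Finset (ℤ × ℤ)) (f : ℝ × ℝ → ℝ) (H : ℤ × ℤ → ℤ) : dctlP δ F f (-H) = -dctlP δ F f H := by
  unfold dctlP
  rw [← Finset.sum_neg_distrib]
  refine Finset.sum_congr rfl (fun u _ => ?_)
  simp

/-! ## 6. the expectation functional of the frozen law -/

/-- the partition function -/
def dctlZ (x : ℝ) (F : Finset (ℤ × ℤ)) : ℝ := ∑ h ∈ admissibleHeights F, x ^ heightChanges h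

/-- **the expectation of an observable `G (H)`, `H : ℤ × ℤ → ℤ`, under the frozen law** -/
def dctlE (x : ℝ) (F : Finset (ℤ × ℤ)) (G : (ℤ × ℤ → ℤ) → ℝ) : ℝ :=
  (∑ h ∈ admissibleHeights F, x ^ heightChanges h * G (heightAt h)) / dctlZ x F

theorem dctl_E_eqns_cite : True := by
  have := @dctlZ.eq_1; have := @dctlE.eq_1
  trivial

theorem dctl_Z_pos {x : ℝ} (hx : 0 < x) (F : Finset (ℤ × ℤ)) : 0 < dctlZ x F := tmm_Z_pos hx F

/-- **`lipschitzExpect` is the expectation of `φ (pairing / σ)`** -/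
theorem dctl_expect (x δ σ : ℝ) (F : Finset (ℤ × ℤ)) (f : ℝ × ℝ → ℝ) (φ : ℝ → ℝ) :
    lipschitzExpect x δ σ F f φ = dctlE x F (fun H => φ (dctlP δ F f H / σ)) := by
  unfold lipschitzExpect dctlE dctlZ
  congr 1
  refine Finset.sum_congr rfl (fun h _ => ?_)
  rw [dctl_pairing]

/-- **the frozen law on ANY finite set of lattice heights with the right membership and ANY count of the unequal edges** -/
theorem dctl_E_transport {x : ℝ} {F G : Finset (ℤ × ℤ)} (hFG : F ⊆ G) {S : Finset (ℤ × ℤ → ℤ)} (hS : ∀ H, H ∈ S ↔ DctlAdm F H)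
    (Ψ : (ℤ × ℤ → ℤ) → ℝ) : dctlE x F Ψ = (∑ H ∈ S, x ^ dctlN G H * Ψ H) / ∑ H ∈ S, x ^ dctlN G H := by
  unfold dctlE dctlZ
  rw [← dctl_sum_transport hS (fun H => x ^ dctlN G H * Ψ H), ← dctl_sum_transport hS (fun H => x ^ dctlN G H)]
  congr 1
  · exact Finset.sum_congr rfl (fun h hh => by rw [dctl_changes hFG hh])
  · exact Finset.sum_congr rfl (fun h hh => by rw [dctl_changes hFG hh])

theorem dctl_E_const {x : ℝ} (hx : 0 < x) (F : Finset (ℤ × ℤ)) (c : ℝ) : dctlE x F (fun _ => c) = c := by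
  unfold dctlE
  rw [← Finset.sum_mul]
  exact mul_div_cancel_left₀ c (dctl_Z_pos hx F).ne'

theorem dctl_E_add (x : ℝ) (F : Finset (ℤ × ℤ)) (G1 G2 : (ℤ × ℤ → ℤ) → ℝ) :
    dctlE x F (fun H => G1 H + G2 H) = dctlE x F G1 + dctlE x F G2 := by
  unfold dctlE
  rw [← add_div, ← Finset.sum_add_distrib]
  congr 1
  exact Finset.sum_congr rfl (fun h _ => by ring)

theorem dctl_E_smul (x : ℝ) (F : Finset (ℤ × ℤ)) (c : ℝ) (G : (ℤ × ℤ → ℤ) → ℝ) : dctlE x F (fun H => c * G H) = c * dctlE x F G := by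
  unfold dctlE
  rw [← mul_div_assoc, Finset.mul_sum]
  congr 1
  exact Finset.sum_congr rfl (fun h _ => by ring)

theorem dctl_E_sub (x : ℝ) (F : Finset (ℤ × ℤ)) (G1 G2 : (ℤ × ℤ → ℤ) → ℝ) :
    dctlE x F (fun H => G1 H - G2 H) = dctlE x F G1 - dctlE x F G2 := by
  unfold dctlE
  rw [← sub_div, ← Finset.sum_sub_distrib]
  congr 1
  exact Finset.sum_congr rfl (fun h _ => by ring)

theorem dctl_E_sum (x : ℝ) (F : Finset (ℤ × ℤ)) {ι : Type*} (s : Finset ι) (G : ι → (ℤ × ℤ → ℤ) → ℝ) :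
    dctlE x F (fun H => ∑ i ∈ s, G i H) = ∑ i ∈ s, dctlE x F (G i) := by
  unfold dctlE
  rw [← Finset.sum_div, Finset.sum_comm]
  congr 1
  exact Finset.sum_congr rfl (fun h _ => by rw [Finset.mul_sum])

/-- monotonicity; only the values on admissible heights matter -/
theorem dctl_E_mono {x : ℝ} (hx : 0 < x) (F : Finset (ℤ × ℤ)) {G1 G2 : (ℤ × ℤ → ℤ) → ℝ} (h : ∀ H, DctlAdm F H → G1 H ≤ G2 H) :
    dctlE x F G1 ≤ dctlE x F G2 := by
  unfold dctlE
  refine div_le_div_of_nonneg_right (Finset.sum_le_sum (fun g hg => ?_)) (dctl_Z_pos hx F).le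
  exact mul_le_mul_of_nonneg_left (h _ ((dctl_adm_at g).1 hg)) (pow_pos hx _).le

theorem dctl_E_congr (x : ℝ) (F : Finset (ℤ × ℤ)) {G1 G2 : (ℤ × ℤ → ℤ) → ℝ} (h : ∀ H, DctlAdm F H → G1 H = G2 H) :
    dctlE x F G1 = dctlE x F G2 := by
  unfold dctlE
  congr 1
  exact Finset.sum_congr rfl (fun g hg => by rw [h _ ((dctl_adm_at g).1 hg)])

theorem dctl_E_nonneg {x : ℝ} (hx : 0 < x) (F : Finset (ℤ × ℤ)) {G : (ℤ × ℤ → ℤ) → ℝ} (h : ∀ H, DctlAdm F H → 0 ≤ G H) : 0 ≤ dctlE x F G := by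
  have := dctl_E_mono hx F (G1 := fun _ => 0) (G2 := G) h
  rwa [dctl_E_const hx] at this

theorem dctl_E_abs_le {x : ℝ} (hx : 0 < x) (F : Finset (ℤ × ℤ)) (G : (ℤ × ℤ → ℤ) → ℝ) : |dctlE x F G| ≤ dctlE x F (fun H => |G H|) := by
  rw [abs_le]
  constructor
  · have := dctl_E_mono hx F (G1 := fun H => (-1) * |G H|) (G2 := G) (fun H _ => by have := neg_abs_le (G H); linarith)
    rw [dctl_E_smul] at this
    linarith
  · exact dctl_E_mono hx F (fun H _ => le_abs_self _)

/-! ## 7. height reflection -/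

theorem dctl_adm_neg {F : Finset (ℤ × ℤ)} {H : ℤ × ℤ → ℤ} (hH : DctlAdm F H) : DctlAdm F (-H) := by
  refine ⟨fun u hu => by simp [hH.1 u hu], fun u hu hv => by simp [hH.2.1 u hu hv], fun u v huv => ?_⟩
  have := hH.2.2 u v huv
  have e : (-H) u - (-H) v = -(H u - H v) := by simp; ring
  rw [e, abs_neg]
  exact this

theorem dctl_N_neg (G : Finset (ℤ × ℤ)) (H : ℤ × ℤ → ℤ) : dctlN G (-H) = dctlN G H := by
  classical
  unfold dctlN
  refine Finset.sum_congr rfl (fun u _ => Finset.sum_congr rfl (fun d _ => ?_))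
  simp

/-- **height reflection preserves the frozen law** -/
theorem dctl_E_neg (x : ℝ) (F : Finset (ℤ × ℤ)) (G : (ℤ × ℤ → ℤ) → ℝ) : dctlE x F (fun H => G (-H)) = dctlE x F G := by
  rw [dctl_E_transport (Finset.Subset.refl F) dctl_mem_set, dctl_E_transport (Finset.Subset.refl F) dctl_mem_set]
  congr 1
  refine Finset.sum_bij (fun H _ => -H) (fun H hH => (dctl_mem_set _).2 (dctl_adm_neg ((dctl_mem_set H).1 hH)))
    (fun H _ K _ hHK => neg_injective hHK) (fun H hH => ⟨-H, (dctl_mem_set _).2 (dctl_adm_neg ((dctl_mem_set H).1 hH)), neg_neg H⟩)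
    (fun H _ => by rw [dctl_N_neg])

/-- odd observables have mean zero -/
theorem dctl_E_odd (x : ℝ) (F : Finset (ℤ × ℤ)) {G : (ℤ × ℤ → ℤ) → ℝ} (hG : ∀ H, G (-H) = -G H) : dctlE x F G = 0 := by
  have h1 := dctl_E_neg x F G
  simp_rw [hG] at h1
  have h2 : dctlE x F (fun H => -G H) = -dctlE x F G := by
    have := dctl_E_smul x F (-1) G
    simpa using this
  rw [h2] at h1
  linarith

end

end Claimed.Agent.R291
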